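import Vale.Agent.P022.H218.L3.Amb
import Vale.Agent.P025.R2.H816.J01

/-!
# P022K, block F0, row CF: meromorphic functions on the upper half plane (helper63)

`G` is any group acting on `ℍ` by Moebius transformations (`Mo G`).
* `ac : G →* (Mer ≃ₐ[ℂ] Mer)`, `ac g f = f ∘ g⁻¹`; `KF Γ` the fixed field of `Γ`;
* `od τ` the order at `τ`, `pl τ` the valuation ring, `ev τ` the value at `τ`;
* `Fu Γ` discrete and cocompact, `Fr Γ` acts freely.
-/

set_option autoImplicit false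

open UpperHalfPlane Filter Topology
open scoped Manifold MatrixGroups

noncomputable section

namespace Vale.Agent.P022K.F0.Cf

open Vale.Agent.P022.H218.L3 Vale.Agent.P019P

/-- `G` acts by Moebius transformations -/
class Mo (G : Type*) [Group G] [MulAction G ℍ] : Prop where
  ex : ∀ g : G, ∃ s : SL(2, ℝ), ∀ τ : ℍ, g • τ = s • τ

instance : Mo SL(2, ℝ) := ⟨fun g => ⟨g, fun _ => rfl⟩⟩

/-- holomorphic functions as meromorphic functions -/
abbrev jm (f : Hol) : Mer := algebraMap Hol Mer f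

theorem jm_inj {f g : Hol} (h : jm f = jm g) : f = g := IsFractionRing.injective Hol Mer h

theorem jm_ne {f : Hol} (h : f ≠ 0) : jm f ≠ 0 := fun e => h (jm_inj (e.trans (map_zero _).symm))

theorem jm_const (c : ℂ) : jm (algebraMap ℂ Hol c) = algebraMap ℂ Mer c :=
  (IsScalarTower.algebraMap_apply ℂ Hol Mer c).symm

theorem ne_of_val {f : Hol} {τ : ℍ} (h : f.1 τ ≠ 0) : f ≠ 0 := by
  rintro rfl
  exact h rfl

theorem jm_ne' {f : Hol} {τ : ℍ} (h : f.1 τ ≠ 0) : jm f ≠ 0 := jm_ne (ne_of_val h)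

theorem ex_frac (y : Mer) : ∃ g h : Hol, h ≠ 0 ∧ y * jm h = jm g := by
  obtain ⟨g, h, hh, rfl⟩ := IsFractionRing.div_surjective (A := Hol) y
  have h0 : h ≠ 0 := nonZeroDivisors.ne_zero hh
  exact ⟨g, h, h0, div_mul_cancel₀ _ (jm_ne h0)⟩

theorem an (f : Hol) (τ : ℍ) : AnalyticAt ℂ (f.1 ∘ ofComplex) τ :=
  ((UpperHalfPlane.mdifferentiable_iff.1 f.2).analyticOnNhd isOpen_upperHalfPlaneSet) _ τ.im_pos

theorem cont (f : Hol) : Continuous f.1 := MDifferentiable.continuous (mem_Hol.1 f.2)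

theorem ev_coe {p : ℂ → Prop} {τ : ℍ} : (∀ᶠ z in 𝓝 (τ : ℂ), p z) ↔ ∀ᶠ σ : ℍ in 𝓝 τ, p σ := by
  rw [← isOpenEmbedding_coe.map_nhds_eq, eventually_map]

theorem hol_of_loc {u : ℍ → ℂ}
    (h : ∀ τ : ℍ, ∃ g : ℂ → ℂ, DifferentiableAt ℂ g τ ∧ ∀ᶠ σ : ℍ in 𝓝 τ, u σ = g σ) :
    u ∈ Hol := by
  intro τ
  obtain ⟨g, hg, he⟩ := h τ
  rw [mdifferentiableAt_iff]
  refine hg.congr_of_eventuallyEq (ev_coe.2 ?_)
  filter_upwards [he] with σ hσ
  rw [Function.comp_apply, ofComplex_apply, hσ]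

/-! ### the action -/

section act

variable {G : Type*} [Group G] [MulAction G ℍ] [Mo G]

theorem det_pos (s : SL(2, ℝ)) : 0 < ((s : GL (Fin 2) ℝ)).det.val := by simp

theorem md_smul (g : G) : MDifferentiable 𝓘(ℂ) 𝓘(ℂ) (fun τ : ℍ => g • τ) := by
  obtain ⟨s, hs⟩ := Mo.ex g
  rw [show (fun τ : ℍ => g • τ) = fun τ : ℍ => (s : GL (Fin 2) ℝ) • τ from funext hs]
  exact mdifferentiable_smul (det_pos s)

theorem dist_sm (g : G) (τ σ : ℍ) : dist (g • τ) (g • σ) = dist τ σ := by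
  obtain ⟨s, hs⟩ := Mo.ex g
  rw [hs, hs, dist_smul]

theorem cont_sm (g : G) : Continuous (fun τ : ℍ => g • τ) := (md_smul g).continuous

theorem cmp_mem (g : G) {f : ℍ → ℂ} (hf : f ∈ Hol) : (fun τ => f (g • τ)) ∈ Hol :=
  (mem_Hol.1 hf).comp (md_smul g)

/-- the action on holomorphic functions, `acH g f = f ∘ g⁻¹` -/
def acH : G →* (Hol ≃ₐ[ℂ] Hol) where
  toFun g :=
    { toFun := fun f => ⟨fun τ => f.1 (g⁻¹ • τ), cmp_mem g⁻¹ f.2⟩
      invFun := fun f => ⟨fun τ => f.1 (g • τ), cmp_mem g f.2⟩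
      left_inv := fun f => Subtype.ext (funext fun τ => by simp)
      right_inv := fun f => Subtype.ext (funext fun τ => by simp)
      map_mul' := fun f g => rfl
      map_add' := fun f g => rfl
      commutes' := fun c => rfl }
  map_one' := by
    ext f τ
    simp
  map_mul' γ δ := by
    ext f τ
    show f.1 ((γ * δ)⁻¹ • τ) = f.1 (δ⁻¹ • γ⁻¹ • τ)
    rw [mul_inv_rev, mul_smul]

theorem acH_apply (g : G) (f : Hol) (τ : ℍ) : (acH g f).1 τ = f.1 (g⁻¹ • τ) := rfl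

/-- the action on meromorphic functions -/
def ac : G →* (Mer ≃ₐ[ℂ] Mer) :=
  (IsFractionRing.fieldEquivOfAlgEquivHom (A := ℂ) (B := Hol) ℂ Mer).comp acH

theorem ac_jm (g : G) (f : Hol) : ac g (jm f) = jm (acH g f) := by
  simp [ac]

theorem ac_mul (g h : G) (y : Mer) : ac (g * h) y = ac g (ac h y) := by
  rw [map_mul]; rfl

theorem ac_inv_ac (g : G) (y : Mer) : ac g⁻¹ (ac g y) = y := by
  rw [← ac_mul, inv_mul_cancel, map_one]; rfl

theorem ac_ac_inv (g : G) (y : Mer) : ac g (ac g⁻¹ y) = y := by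
  rw [← ac_mul, mul_inv_cancel, map_one]; rfl

/-- the field of the invariant meromorphic functions -/
def KF (Γ : Subgroup G) : IntermediateField ℂ Mer := IntermediateField.fixedField (Γ.map ac)

theorem mem_KF {Γ : Subgroup G} {y : Mer} : y ∈ KF Γ ↔ ∀ γ ∈ Γ, ac γ y = y := by
  unfold KF
  rw [IntermediateField.mem_fixedField_iff]
  constructor
  · intro h γ hγ
    exact h _ ⟨γ, hγ, rfl⟩
  · rintro h _ ⟨γ, hγ, rfl⟩
    exact h γ hγ

theorem KF_anti {Γ Γ' : Subgroup G} (h : Γ' ≤ Γ) : KF Γ ≤ KF Γ' :=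
  fun _ hy => mem_KF.2 fun γ hγ => mem_KF.1 hy γ (h hγ)

theorem ac_mem {Γ Γ' : Subgroup G} {g : G} (h : ∀ γ ∈ Γ', g⁻¹ * γ * g ∈ Γ) {y : Mer}
    (hy : y ∈ KF Γ) : ac g y ∈ KF Γ' := mem_KF.2 fun γ hγ => by
  rw [← ac_mul, show γ * g = g * (g⁻¹ * γ * g) by group, ac_mul, mem_KF.1 hy _ (h γ hγ)]

end act

/-- discrete and cocompact -/
structure Fu {G : Type*} [Group G] [MulAction G ℍ] (Γ : Subgroup G) : Prop where
  disc : ∀ r : ℝ, {γ : G | γ ∈ Γ ∧ dist (γ • I) I ≤ r}.Finite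
  cpt : ∃ r : ℝ, ∀ τ : ℍ, ∃ γ ∈ Γ, dist (γ • τ) I ≤ r

/-- free action -/
def Fr {G : Type*} [Group G] [MulAction G ℍ] (Γ : Subgroup G) : Prop :=
  ∀ γ ∈ Γ, ∀ τ : ℍ, γ • τ = τ → γ = 1

/-! ### orders -/

/-- the local coordinate at `a` -/
def tz (a : ℍ) : Hol := ⟨fun τ => (τ : ℂ) - a, mdifferentiable_coe.sub mdifferentiable_const⟩

theorem tz_val (a τ : ℍ) : (tz a).1 τ = (τ : ℂ) - a := rfl

theorem tz_self (a : ℍ) : (tz a).1 a = 0 := sub_self _

theorem sub_ne {a τ : ℍ} (h : τ ≠ a) : (τ : ℂ) - a ≠ 0 :=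
  sub_ne_zero.2 fun e => h (UpperHalfPlane.ext e)

theorem tz_ne {a τ : ℍ} (h : τ ≠ a) : (tz a).1 τ ≠ 0 := sub_ne h

theorem ex_ne (a : ℍ) : ∃ τ : ℍ, τ ≠ a := by
  refine ⟨⟨a + 1, by simpa using a.im_pos⟩, fun h => ?_⟩
  have := congrArg (fun τ : ℍ => (τ : ℂ)) h
  simp at this

theorem jt_ne (a : ℍ) : jm (tz a) ≠ 0 := by
  obtain ⟨τ, h⟩ := ex_ne a
  exact jm_ne' (tz_ne h)

/-- a holomorphic function is a power of the coordinate times a unit at `a` -/
theorem ex_fac (a : ℍ) {f : Hol} (hf : f ≠ 0) :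
    ∃ (m : ℕ) (u : Hol), u.1 a ≠ 0 ∧ f = tz a ^ m * u := by
  have h1 : ¬ ∀ᶠ z in 𝓝 (a : ℂ), (f.1 ∘ ofComplex) z = 0 := by
    intro h
    rw [ev_coe] at h
    refine hf (Subtype.ext (eq_zero_of_frequently f.2 (τ := a) ?_))
    have : NeBot (𝓝[≠] a) := by
      have h2 : NeBot (𝓝[≠] (a : ℂ)) := inferInstance
      rw [← mem_closure_iff_nhdsWithin_neBot] at h2 ⊢
      rw [isOpenEmbedding_coe.isEmbedding.closure_eq_preimage_closure_image, Set.mem_preimage,
        mem_closure_iff_nhds]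
      intro t ht
      obtain ⟨z, hz1, hz2⟩ := mem_closure_iff_nhds.1 h2 _
        (inter_mem ht (isOpen_upperHalfPlaneSet.mem_nhds a.im_pos))
      exact ⟨z, hz1.1, ⟨z, hz1.2⟩, fun e => hz2 (congrArg (fun τ : ℍ => (τ : ℂ)) e), rfl⟩
    refine Eventually.frequently (eventually_nhdsWithin_of_eventually_nhds ?_)
    filter_upwards [h] with σ hσ
    simpa using hσ
  obtain ⟨m, g, hg, g0, he⟩ := (an f a).exists_eventuallyEq_pow_smul_nonzero_iff.2 h1
  classical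
  have he' : ∀ᶠ σ : ℍ in 𝓝 a, f.1 σ = ((σ : ℂ) - a) ^ m * g σ := by
    filter_upwards [ev_coe.1 he] with σ hσ
    simpa using hσ
  refine ⟨m, ⟨fun τ => if τ = a then g a else f.1 τ / ((τ : ℂ) - a) ^ m, hol_of_loc fun τ => ?_⟩,
    by simpa using g0, Subtype.ext (funext fun τ => ?_)⟩
  · by_cases h : τ = a
    · subst h
      refine ⟨g, hg.differentiableAt, ?_⟩
      filter_upwards [he'] with σ hσ
      split_ifs with h
      · rw [h]
      · rw [hσ, mul_div_cancel_left₀ _ (pow_ne_zero _ (sub_ne h))]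
    · refine ⟨fun z => (f.1 ∘ ofComplex) z / (z - a) ^ m, (an f τ).differentiableAt.div
        (by fun_prop) (pow_ne_zero _ (tz_ne h)), ?_⟩
      filter_upwards [isOpen_ne.mem_nhds h] with σ hσ
      rw [if_neg hσ, Function.comp_apply, ofComplex_apply]
  · show f.1 τ = ((τ : ℂ) - a) ^ m * if τ = a then g a else f.1 τ / ((τ : ℂ) - a) ^ m
    split_ifs with h
    · rw [h]; exact he'.self_of_nhds
    · rw [mul_div_cancel₀ _ (pow_ne_zero _ (sub_ne h))]

/-- `y` has the order `m` at `a` -/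
def IsOd (a : ℍ) (y : Mer) (m : ℤ) : Prop :=
  ∃ g h : Hol, g.1 a ≠ 0 ∧ h.1 a ≠ 0 ∧ y * jm h = jm (tz a) ^ m * jm g

theorem ex_isOd (a : ℍ) {y : Mer} (hy : y ≠ 0) : ∃ m, IsOd a y m := by
  obtain ⟨g, h, h0, e⟩ := ex_frac y
  have g0 : g ≠ 0 := by
    rintro rfl
    exact mul_ne_zero hy (jm_ne h0) (e.trans (map_zero _))
  obtain ⟨m, u, hu, rfl⟩ := ex_fac a g0
  obtain ⟨n, v, hv, rfl⟩ := ex_fac a h0
  refine ⟨(m : ℤ) - n, u, v, hu, hv, ?_⟩
  simp only [jm, map_mul, map_pow] at e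
  have ht := jt_ne a
  rw [zpow_sub₀ ht, zpow_natCast, zpow_natCast, div_mul_eq_mul_div, ← e]
  field_simp

theorem IsOd.ne {a : ℍ} {y : Mer} {m : ℤ} (h : IsOd a y m) : y ≠ 0 := by
  obtain ⟨g, h, g0, -, e⟩ := h
  rintro rfl
  exact mul_ne_zero (zpow_ne_zero _ (jt_ne a)) (jm_ne' g0) (e.symm.trans (zero_mul _))

theorem IsOd.mul {a : ℍ} {y z : Mer} {m n : ℤ} (h : IsOd a y m) (h' : IsOd a z n) :
    IsOd a (y * z) (m + n) := by
  obtain ⟨g, h, g0, h0, e⟩ := h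
  obtain ⟨g', h', g0', h0', e'⟩ := h'
  refine ⟨g * g', h * h', mul_ne_zero g0 g0', mul_ne_zero h0 h0', ?_⟩
  simp only [jm, map_mul] at e e' ⊢
  rw [zpow_add₀ (jt_ne a)]
  linear_combination (z * algebraMap Hol Mer h') * e +
    (algebraMap Hol Mer (tz a) ^ m * algebraMap Hol Mer g) * e'

theorem IsOd.inv {a : ℍ} {y : Mer} {m : ℤ} (h : IsOd a y m) : IsOd a y⁻¹ (-m) := by
  have hy := h.ne
  obtain ⟨g, h, g0, h0, e⟩ := h
  refine ⟨h, g, h0, g0, ?_⟩
  have ht := zpow_ne_zero m (jt_ne a)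
  rw [zpow_neg]
  field_simp
  rw [e, mul_comm]

theorem isOd_one {a : ℍ} {m : ℤ} (h : IsOd a 1 m) : m = 0 := by
  have key : ∀ m : ℤ, IsOd a 1 m → m ≤ 0 := by
    rintro m ⟨g, h, -, h0, e⟩
    by_contra hm
    obtain ⟨n, rfl⟩ : ∃ n : ℕ, m = (n + 1 : ℕ) := ⟨(m - 1).toNat, by omega⟩
    rw [one_mul, zpow_natCast, ← map_pow, ← map_mul] at e
    apply h0
    rw [jm_inj e]
    show (tz a).1 a ^ (n + 1) * g.1 a = 0
    rw [tz_self, zero_pow n.succ_ne_zero, zero_mul]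
  have h1 := key m h
  have h2 := key (-m) (by simpa using h.inv)
  omega

theorem IsOd.uniq {a : ℍ} {y : Mer} {m n : ℤ} (h : IsOd a y m) (h' : IsOd a y n) : m = n := by
  have := h.mul h'.inv
  rw [mul_inv_cancel₀ h.ne] at this
  have := isOd_one this
  omega

open Classical in
/-- the order at `a` (`0` for the zero function) -/
def od (a : ℍ) (y : Mer) : ℤ := if h : y = 0 then 0 else (ex_isOd a h).choose

theorem od_zero (a : ℍ) : od a 0 = 0 := dif_pos rfl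

theorem isOd (a : ℍ) {y : Mer} (hy : y ≠ 0) : IsOd a y (od a y) := by
  unfold od
  rw [dif_neg hy]
  exact (ex_isOd a hy).choose_spec

theorem IsOd.eq {a : ℍ} {y : Mer} {m : ℤ} (h : IsOd a y m) : od a y = m := (isOd a h.ne).uniq h

theorem od_mul (a : ℍ) {y z : Mer} (hy : y ≠ 0) (hz : z ≠ 0) : od a (y * z) = od a y + od a z :=
  ((isOd a hy).mul (isOd a hz)).eq

theorem od_inv (a : ℍ) (y : Mer) : od a y⁻¹ = -od a y := by
  by_cases hy : y = 0
  · rw [hy, inv_zero, od_zero, neg_zero]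
  · exact (isOd a hy).inv.eq

theorem od_div (a : ℍ) {y z : Mer} (hy : y ≠ 0) (hz : z ≠ 0) : od a (y / z) = od a y - od a z := by
  rw [div_eq_mul_inv, od_mul a hy (inv_ne_zero hz), od_inv, sub_eq_add_neg]

theorem od_unit {a : ℍ} {u : Hol} (h : u.1 a ≠ 0) : od a (jm u) = 0 :=
  IsOd.eq ⟨u, 1, h, one_ne_zero, by simp⟩

theorem od_one (a : ℍ) : od a 1 = 0 := by
  have := od_unit (a := a) (u := 1) one_ne_zero
  rwa [jm, map_one] at this

theorem od_const (a : ℍ) (c : ℂ) : od a (algebraMap ℂ Mer c) = 0 := by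
  by_cases h : c = 0
  · rw [h, map_zero, od_zero]
  · rw [← jm_const]
    exact od_unit h

theorem od_tz_zpow (a : ℍ) (m : ℤ) : od a (jm (tz a) ^ m) = m :=
  IsOd.eq ⟨1, 1, one_ne_zero, one_ne_zero, rfl⟩

theorem od_tz (a : ℍ) : od a (jm (tz a)) = 1 := by
  have := od_tz_zpow a 1
  rwa [zpow_one] at this

theorem od_pow (a : ℍ) (y : Mer) (n : ℕ) : od a (y ^ n) = n * od a y := by
  by_cases hy : y = 0
  · rcases n with _ | n
    · rw [pow_zero, od_one]; simp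
    · rw [hy, zero_pow n.succ_ne_zero, od_zero, mul_zero]
  · induction n with
    | zero => rw [pow_zero, od_one]; simp
    | succ n ih =>
      rw [pow_succ, od_mul a (pow_ne_zero _ hy) hy, ih]
      push_cast
      ring

theorem od_zpow (a : ℍ) (y : Mer) (n : ℤ) : od a (y ^ n) = n * od a y := by
  obtain ⟨m, rfl | rfl⟩ := Int.eq_nat_or_neg n
  · rw [zpow_natCast, od_pow]
  · rw [zpow_neg, od_inv, zpow_natCast, od_pow, neg_mul]

theorem od_jm (a : ℍ) (f : Hol) : 0 ≤ od a (jm f) := by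
  by_cases hf : f = 0
  · rw [hf, jm, map_zero, od_zero]
  · obtain ⟨m, u, hu, rfl⟩ := ex_fac a hf
    rw [IsOd.eq (m := m) ⟨u, 1, hu, one_ne_zero, by simp⟩]
    exact Int.natCast_nonneg m

theorem od_jm_pos {a : ℍ} {f : Hol} (hf : f ≠ 0) : 0 < od a (jm f) ↔ f.1 a = 0 := by
  constructor
  · intro h
    by_contra h0
    rw [od_unit h0] at h
    exact lt_irrefl _ h
  · intro h
    obtain ⟨m, u, hu, rfl⟩ := ex_fac a hf
    rw [IsOd.eq (m := m) ⟨u, 1, hu, one_ne_zero, by simp⟩]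
    rcases m with _ | m
    · exact absurd (by simpa using h) hu
    · exact_mod_cast m.succ_pos

/-- regular at `a` -/
def Reg (a : ℍ) (y : Mer) : Prop := ∃ g h : Hol, h.1 a ≠ 0 ∧ y * jm h = jm g

theorem reg_iff {a : ℍ} {y : Mer} : Reg a y ↔ y = 0 ∨ 0 ≤ od a y := by
  constructor
  · rintro ⟨g, h, h0, e⟩
    by_cases hy : y = 0
    · exact Or.inl hy
    · have := od_jm a g
      rw [← e, od_mul a hy (jm_ne' h0), od_unit h0, add_zero] at this
      exact Or.inr this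
  · intro h
    by_cases hy : y = 0
    · exact ⟨0, 1, one_ne_zero, by simp [hy]⟩
    · obtain ⟨g, h', -, h0, e⟩ := isOd a hy
      obtain ⟨n, hn⟩ := Int.eq_ofNat_of_zero_le (h.resolve_left hy)
      refine ⟨tz a ^ n * g, h', h0, ?_⟩
      rw [e, hn, zpow_natCast]
      simp only [jm, map_mul, map_pow]

theorem Reg.mul {a : ℍ} {y z : Mer} (h : Reg a y) (h' : Reg a z) : Reg a (y * z) := by
  obtain ⟨g, h, h0, e⟩ := h
  obtain ⟨g', h', h0', e'⟩ := h'
  refine ⟨g * g', h * h', mul_ne_zero h0 h0', ?_⟩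
  simp only [jm, map_mul] at e e' ⊢
  rw [← e, ← e']
  ring

theorem Reg.add {a : ℍ} {y z : Mer} (h : Reg a y) (h' : Reg a z) : Reg a (y + z) := by
  obtain ⟨g, h, h0, e⟩ := h
  obtain ⟨g', h', h0', e'⟩ := h'
  refine ⟨g * h' + g' * h, h * h', mul_ne_zero h0 h0', ?_⟩
  simp only [jm, map_mul, map_add] at e e' ⊢
  rw [← e, ← e']
  ring

theorem reg_jm (a : ℍ) (f : Hol) : Reg a (jm f) := ⟨f, 1, one_ne_zero, by simp⟩

theorem reg_const (a : ℍ) (c : ℂ) : Reg a (algebraMap ℂ Mer c) := jm_const c ▸ reg_jm a _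

/-- the ring of the functions which are regular at `a` -/
def pl (a : ℍ) : ValuationSubring Mer where
  carrier := {y | Reg a y}
  mul_mem' := Reg.mul
  add_mem' := Reg.add
  one_mem' := by simpa using reg_const a 1
  zero_mem' := by simpa using reg_const a 0
  neg_mem' := fun {y} hy => by simpa using (reg_const a (-1)).mul hy
  mem_or_inv_mem' y := by
    show Reg a y ∨ Reg a y⁻¹
    rw [reg_iff, reg_iff, od_inv]
    omega

theorem mem_pl {a : ℍ} {y : Mer} : y ∈ pl a ↔ Reg a y := Iff.rfl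

theorem od_add (a : ℍ) {y z : Mer} (hy : y ≠ 0) (hz : z ≠ 0) (h : y + z ≠ 0) :
    min (od a y) (od a z) ≤ od a (y + z) := by
  obtain ⟨m, hm⟩ : ∃ m, m = min (od a y) (od a z) := ⟨_, rfl⟩
  have ht := zpow_ne_zero (-m) (jt_ne a)
  have k : ∀ w : Mer, w ≠ 0 → (Reg a (jm (tz a) ^ (-m) * w) ↔ m ≤ od a w) := fun w hw => by
    rw [reg_iff, od_mul a ht hw, od_tz_zpow, or_iff_right (mul_ne_zero ht hw)]
    omega
  rw [← hm, ← k _ h, mul_add]
  exact ((k y hy).2 (by omega)).add ((k z hz).2 (by omega))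

theorem isOrd_pl (a : ℍ) : IsOrd (pl a) (od a) where
  zero := od_zero a
  mul _ _ := od_mul a
  add _ _ := od_add a
  mem _ := reg_iff
  one := ⟨_, od_tz a⟩

open Classical in
/-- the value at `a` (`0` at a pole) -/
def ev (a : ℍ) (y : Mer) : ℂ :=
  if h : Reg a y then h.choose.1 a / h.choose_spec.choose.1 a else 0

theorem ev_eq {a : ℍ} {y : Mer} {g h : Hol} (h0 : h.1 a ≠ 0) (e : y * jm h = jm g) :
    ev a y = g.1 a / h.1 a := by
  have hr : Reg a y := ⟨g, h, h0, e⟩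
  unfold ev
  rw [dif_pos hr]
  obtain ⟨h1, e1⟩ := hr.choose_spec.choose_spec
  generalize hr.choose_spec.choose = h' at h1 e1
  generalize hr.choose = g' at e1
  have : g' * h = g * h' := jm_inj (by
    simp only [jm, map_mul] at e e1 ⊢
    rw [← e, ← e1]
    ring)
  rw [div_eq_div_iff h1 h0]
  exact congrFun (congrArg Subtype.val this) a

theorem ev_jm (a : ℍ) (f : Hol) : ev a (jm f) = f.1 a := by
  rw [ev_eq (g := f) (h := 1) one_ne_zero (by simp)]
  exact div_one _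

theorem ev_const (a : ℍ) (c : ℂ) : ev a (algebraMap ℂ Mer c) = c := by
  rw [← jm_const, ev_jm]
  rfl

theorem ev_zero (a : ℍ) : ev a 0 = 0 := by simpa using ev_const a 0

theorem ev_mul {a : ℍ} {y z : Mer} (h : Reg a y) (h' : Reg a z) :
    ev a (y * z) = ev a y * ev a z := by
  obtain ⟨g, h, h0, e⟩ := h
  obtain ⟨g', h', h0', e'⟩ := h'
  rw [ev_eq h0 e, ev_eq h0' e', ev_eq (g := g * g') (h := h * h') (mul_ne_zero h0 h0') (by
    simp only [jm, map_mul] at e e' ⊢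
    rw [← e, ← e']
    ring), div_mul_div_comm]
  rfl

theorem ev_add {a : ℍ} {y z : Mer} (h : Reg a y) (h' : Reg a z) :
    ev a (y + z) = ev a y + ev a z := by
  obtain ⟨g, h, h0, e⟩ := h
  obtain ⟨g', h', h0', e'⟩ := h'
  rw [ev_eq h0 e, ev_eq h0' e', ev_eq (g := g * h' + h * g') (h := h * h') (mul_ne_zero h0 h0') (by
    simp only [jm, map_mul, map_add] at e e' ⊢
    rw [← e, ← e']
    ring), div_add_div _ _ h0 h0']
  rfl

theorem ev_eq_zero {a : ℍ} {y : Mer} (hy : y ≠ 0) (h : Reg a y) : ev a y = 0 ↔ 0 < od a y := by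
  obtain ⟨g, h, h0, e⟩ := h
  have g0 : g ≠ 0 := by
    rintro rfl
    exact mul_ne_zero hy (jm_ne' h0) (e.trans (map_zero _))
  rw [ev_eq h0 e, div_eq_zero_iff, or_iff_left h0, ← od_jm_pos g0, ← e, od_mul a hy (jm_ne' h0),
    od_unit h0, add_zero]

/-- a function which is regular everywhere is holomorphic -/
theorem ex_hol {y : Mer} (h : ∀ a, Reg a y) : ∃ f : Hol, y = jm f ∧ ∀ a, f.1 a = ev a y := by
  have hm : (fun a => ev a y) ∈ Hol := hol_of_loc fun τ => by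
    obtain ⟨g, h, h0, e⟩ := h τ
    refine ⟨fun z => (g.1 ∘ ofComplex) z / (h.1 ∘ ofComplex) z, (an g τ).differentiableAt.div
      (an h τ).differentiableAt (by simpa using h0), ?_⟩
    filter_upwards [(cont h).continuousAt.eventually_ne h0] with σ hσ
    rw [ev_eq hσ e]
    simp
  refine ⟨⟨_, hm⟩, ?_, fun _ => rfl⟩
  obtain ⟨g, h', h0, e⟩ := ex_frac y
  refine mul_right_cancel₀ (jm_ne h0) ?_
  rw [e, ← map_mul]
  congr 1
  refine Subtype.ext (funext fun a => ?_)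
  show g.1 a = ev a y * h'.1 a
  rw [← ev_jm, ← e, ev_mul (h a) (reg_jm a h'), ev_jm]

/-! ### invariance -/

section inv

variable {G : Type*} [Group G] [MulAction G ℍ] [Mo G]

theorem Reg.ac {a : ℍ} {y : Mer} (h : Reg a y) (g : G) : Reg (g • a) (ac g y) := by
  obtain ⟨u, v, v0, e⟩ := h
  refine ⟨acH g u, acH g v, by rwa [acH_apply, inv_smul_smul], ?_⟩
  rw [← ac_jm, ← ac_jm, ← map_mul, e]

theorem reg_ac {a : ℍ} {y : Mer} (g : G) : Reg (g • a) (ac g y) ↔ Reg a y :=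
  ⟨fun h => by simpa only [inv_smul_smul, ac_inv_ac] using h.ac g⁻¹, fun h => h.ac g⟩

theorem ev_ac (a : ℍ) (y : Mer) (g : G) : ev (g • a) (ac g y) = ev a y := by
  by_cases h : Reg a y
  · obtain ⟨u, v, v0, e⟩ := h
    rw [ev_eq v0 e, ev_eq (g := acH g u) (h := acH g v) (by rwa [acH_apply, inv_smul_smul])
      (by rw [← ac_jm, ← ac_jm, ← map_mul, e]), acH_apply, acH_apply, inv_smul_smul]
  · unfold ev
    rw [dif_neg h, dif_neg (mt (reg_ac g).1 h)]

theorem od_ac (a : ℍ) (y : Mer) (g : G) : od (g • a) (ac g y) = od a y := by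
  have h : IsOrd (pl a) (fun y => od (g • a) (ac g y)) :=
    { zero := by simp only [map_zero, od_zero]
      mul := fun x z hx hz => by
        simp only [map_mul]
        exact od_mul _ ((map_ne_zero _).2 hx) ((map_ne_zero _).2 hz)
      add := fun x z hx hz h => by
        simp only [map_add]
        exact od_add _ ((map_ne_zero _).2 hx) ((map_ne_zero _).2 hz)
          (by rw [← map_add]; exact (map_ne_zero _).2 h)
      mem := fun x => by rw [mem_pl, ← reg_ac g, reg_iff, map_eq_zero]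
      one := ⟨ac g⁻¹ (jm (tz (g • a))), by simp only [ac_ac_inv, od_tz]⟩ }
  exact congrFun (h.unique (isOrd_pl a)) y

theorem od_KF {Γ : Subgroup G} {y : Mer} (hy : y ∈ KF Γ) {γ : G} (hγ : γ ∈ Γ) (a : ℍ) :
    od (γ • a) y = od a y := by
  rw [← od_ac a y γ, mem_KF.1 hy γ hγ]

theorem ev_KF {Γ : Subgroup G} {y : Mer} (hy : y ∈ KF Γ) {γ : G} (hγ : γ ∈ Γ) (a : ℍ) :
    ev (γ • a) y = ev a y := by
  rw [← ev_ac a y γ, mem_KF.1 hy γ hγ]

end inv

end Vale.Agent.P022K.F0.Cf
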