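import Vale.Agent.P022K.F0.Cf.Defs

/-!
# P022K, block F0, row CF: the derivation `d / d τ` (helper63)
-/

set_option autoImplicit false

open UpperHalfPlane Filter Topology
open scoped Manifold MatrixGroups

noncomputable section

namespace Vale.Agent.P022K.F0.Cf

open Vale.Agent.P022.H218.L3 Vale.Agent.P019P

/-- the derivative of a holomorphic function -/
def dH (f : Hol) : Hol := ⟨fun τ => deriv (f.1 ∘ ofComplex) τ, hol_of_loc fun τ =>
  ⟨deriv (f.1 ∘ ofComplex), (an f τ).deriv.differentiableAt, Eventually.of_forall fun _ => rfl⟩⟩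

theorem hasD (f : Hol) (τ : ℍ) : HasDerivAt (f.1 ∘ ofComplex) ((dH f).1 τ) τ :=
  (an f τ).differentiableAt.hasDerivAt

theorem dH_eq {f : Hol} {τ : ℍ} {g : ℂ → ℂ} {c : ℂ} (h : HasDerivAt g c τ)
    (e : ∀ᶠ σ : ℍ in 𝓝 τ, f.1 σ = g σ) : (dH f).1 τ = c := by
  refine (hasD f τ).unique (h.congr_of_eventuallyEq (ev_coe.2 ?_))
  filter_upwards [e] with σ hσ
  rw [Function.comp_apply, ofComplex_apply, hσ]

theorem dH_add (f g : Hol) : dH (f + g) = dH f + dH g :=
  Subtype.ext (funext fun τ => dH_eq ((hasD f τ).add (hasD g τ))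
    (Eventually.of_forall fun σ => by simp))

theorem dH_mul (f g : Hol) : dH (f * g) = f * dH g + g * dH f :=
  Subtype.ext (funext fun τ => (dH_eq ((hasD f τ).mul (hasD g τ))
    (Eventually.of_forall fun σ => by simp)).trans (by simp; ring))

theorem dH_const (c : ℂ) : dH (algebraMap ℂ Hol c) = 0 :=
  Subtype.ext (funext fun _ => dH_eq (hasDerivAt_const _ c) (Eventually.of_forall fun _ => rfl))

theorem dH_tz (a : ℍ) : dH (tz a) = 1 :=
  Subtype.ext (funext fun τ => dH_eq ((hasDerivAt_id (τ : ℂ)).sub_const (a : ℂ))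
    (Eventually.of_forall fun _ => rfl))

/-- a function with derivative zero is constant -/
theorem const_of_dH {f : Hol} (h : dH f = 0) : ∃ c, f = algebraMap ℂ Hol c := by
  refine ⟨f.1 I, Subtype.ext (funext fun τ => ?_)⟩
  have h1 := isOpen_upperHalfPlaneSet.is_const_of_deriv_eq_zero (f := f.1 ∘ ofComplex)
    (convex_halfSpace_im_gt 0).isPreconnected (UpperHalfPlane.mdifferentiable_iff.1 f.2)
    (fun z hz => congrFun (congrArg Subtype.val h) ⟨z, hz⟩) τ.im_pos I.im_pos
  simp only [Function.comp_apply, ofComplex_apply] at h1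
  exact h1

section ext

variable {A K : Type*} [CommRing A] [IsDomain A] [Field K] [Algebra A K] [IsFractionRing A K]

/-- derivations extend to the field of fractions -/
theorem ex_der (d : A → A) (ha : ∀ f g, d (f + g) = d f + d g)
    (hm : ∀ f g, d (f * g) = f * d g + g * d f) : ∃ D : K → K, (∀ y z, D (y + z) = D y + D z) ∧
      (∀ y z, D (y * z) = y * D z + z * D y) ∧ ∀ f, D (algebraMap A K f) = algebraMap A K (d f) := by
  have d1 : d 1 = 0 := by
    have := hm 1 1
    rw [mul_one, one_mul] at this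
    linear_combination -this
  have d0 : d 0 = 0 := by
    have := ha 0 0
    rw [add_zero] at this
    linear_combination -this
  let jet : A →+* TrivSqZeroExt K K :=
    { toFun := fun f => (algebraMap A K f, algebraMap A K (d f))
      map_one' := by
        ext
        · exact map_one _
        · show algebraMap A K (d 1) = 0
          rw [d1, map_zero]
      map_mul' := fun f g => by
        ext
        · exact map_mul _ _ _
        · show algebraMap A K (d (f * g)) = algebraMap A K f * algebraMap A K (d g) +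
            algebraMap A K (d f) * algebraMap A K g
          rw [hm, map_add, map_mul, map_mul]
          ring
      map_zero' := by
        ext
        · exact map_zero _
        · show algebraMap A K (d 0) = 0
          rw [d0, map_zero]
      map_add' := fun f g => by
        ext
        · exact map_add _ _ _
        · show algebraMap A K (d (f + g)) = algebraMap A K (d f) + algebraMap A K (d g)
          rw [ha, map_add] }
  have hu : ∀ y : nonZeroDivisors A, IsUnit (jet y) := fun y =>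
    TrivSqZeroExt.isUnit_iff_isUnit_fst.2
      (IsFractionRing.to_map_ne_zero_of_mem_nonZeroDivisors (K := K) y.2).isUnit
  let J : K →+* TrivSqZeroExt K K := IsLocalization.lift hu
  have hJ : ∀ f, J (algebraMap A K f) = jet f := fun f => IsLocalization.lift_eq _ _
  have hf : ∀ y, (J y).fst = y := fun y => by
    have : ((TrivSqZeroExt.fstHom ℤ K K : _ →+* K).comp J) = RingHom.id K :=
      IsLocalization.ringHom_ext (nonZeroDivisors A) (RingHom.ext fun f => by
        show (J (algebraMap A K f)).fst = algebraMap A K f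
        rw [hJ]
        rfl)
    exact congrArg (fun φ : K →+* K => φ y) this
  refine ⟨fun y => (J y).snd, fun y z => ?_, fun y z => ?_, fun f => ?_⟩
  · simp only [map_add, TrivSqZeroExt.snd_add]
  · simp only [map_mul, TrivSqZeroExt.snd_mul, hf]
    simp [mul_comm]
  · simp only [hJ]
    rfl

end ext

theorem ex_DM : ∃ D : Mer → Mer, (∀ y z, D (y + z) = D y + D z) ∧
    (∀ y z, D (y * z) = y * D z + z * D y) ∧ ∀ f, D (jm f) = jm (dH f) := ex_der dH dH_add dH_mul

/-- the derivation `d / d τ` -/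
def DM : Derivation ℂ Mer Mer where
  toFun := ex_DM.choose
  map_add' := ex_DM.choose_spec.1
  map_smul' c y := by
    rw [Algebra.smul_def, ex_DM.choose_spec.2.1, ← jm_const, ex_DM.choose_spec.2.2, dH_const,
      jm_const, jm, map_zero, mul_zero, add_zero, RingHom.id_apply, Algebra.smul_def]
  map_one_eq_zero' := by
    have := ex_DM.choose_spec.2.2 (algebraMap ℂ Hol 1)
    rw [dH_const] at this
    simp only [jm, map_one, map_zero] at this
    exact this
  leibniz' := ex_DM.choose_spec.2.1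

theorem DM_jm (f : Hol) : DM (jm f) = jm (dH f) := ex_DM.choose_spec.2.2 f

theorem DM_mul (y z : Mer) : DM (y * z) = y * DM z + z * DM y := ex_DM.choose_spec.2.1 y z

theorem DM_tz (a : ℍ) : DM (jm (tz a)) = 1 := by rw [DM_jm, dH_tz, jm, map_one]

theorem DM_ne : DM ≠ 0 := fun h => by
  have := DM_tz I
  rw [h] at this
  exact zero_ne_one this

theorem DM_frac {y : Mer} {g h : Hol} (e : y * jm h = jm g) :
    DM y * jm (h * h) = jm (h * dH g - g * dH h) := by
  have := congrArg DM e
  rw [DM_mul, DM_jm, DM_jm] at this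
  simp only [jm, map_mul, map_sub] at this e ⊢
  rw [← this, ← e]
  ring

theorem Reg.D {a : ℍ} {y : Mer} (h : Reg a y) : Reg a (DM y) := by
  obtain ⟨g, h, h0, e⟩ := h
  exact ⟨_, h * h, mul_ne_zero h0 h0, DM_frac e⟩

/-- the order of the derivative -/
theorem isOd_D {a : ℍ} {y : Mer} (h : od a y ≠ 0) : IsOd a (DM y) (od a y - 1) := by
  have hy : y ≠ 0 := fun e => h (by rw [e, od_zero])
  obtain ⟨g, u, g0, u0, e⟩ := isOd a hy
  generalize od a y = m at h e
  have ht := jt_ne a
  refine ⟨algebraMap ℂ Hol m * g * u + tz a * (u * dH g - g * dH u), u * u, ?_, mul_ne_zero u0 u0, ?_⟩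
  · show (m : ℂ) * g.1 a * u.1 a + (tz a).1 a * _ ≠ 0
    rw [tz_self, zero_mul, add_zero]
    exact mul_ne_zero (mul_ne_zero (by exact_mod_cast h) g0) u0
  · have h1 := congrArg DM e
    rw [DM_mul, DM_mul, DM_jm, DM_jm, Derivation.leibniz_zpow, DM_tz] at h1
    have h2 : jm (algebraMap ℂ Hol m) = (m : Mer) := by rw [jm_const, map_intCast]
    have h3 : jm (tz a) ^ m = jm (tz a) ^ (m - 1) * jm (tz a) := by rw [zpow_sub_one₀ ht]; field_simp
    simp only [jm, map_mul, map_sub, map_add] at h1 e h2 h3 ⊢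
    rw [h2]
    rw [h3] at h1 e
    simp only [smul_eq_mul, mul_one, zsmul_eq_mul] at h1
    linear_combination algebraMap Hol Mer u * h1 - algebraMap Hol Mer (dH u) * e

theorem od_D {a : ℍ} {y : Mer} (h : od a y ≠ 0) : od a (DM y) = od a y - 1 := (isOd_D h).eq

theorem Reg.sub_ev {a : ℍ} {y : Mer} (h : Reg a y) (h0 : y - algebraMap ℂ Mer (ev a y) ≠ 0) :
    0 < od a (y - algebraMap ℂ Mer (ev a y)) := by
  have e : y - algebraMap ℂ Mer (ev a y) = y + algebraMap ℂ Mer (-ev a y) := by
    rw [map_neg, sub_eq_add_neg]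
  rw [e] at h0 ⊢
  rw [← ev_eq_zero h0 (h.add (reg_const a _)), ev_add h (reg_const a _), ev_const, add_neg_cancel]

/-- the constants of the derivation -/
theorem const_of_DM {y : Mer} (h : DM y = 0) : ∃ c, y = algebraMap ℂ Mer c := by
  have k : ∀ z : Mer, DM z = 0 → od I z = 0 := fun z hz => by
    by_contra h0
    exact (isOd_D h0).ne hz
  have hr : Reg I y := reg_iff.2 (Or.inr (k y h).ge)
  refine ⟨ev I y, sub_eq_zero.1 ?_⟩
  by_contra h0
  have := hr.sub_ev h0
  rw [k _ (by rw [map_sub, h, Derivation.map_algebraMap, sub_zero])] at this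
  exact lt_irrefl _ this

section

variable {G : Type*} [Group G] [MulAction G ℍ] [Mo G]

/-- the function `τ ↦ g τ` -/
def mv (g : G) : Hol := ⟨fun τ => ((g • τ : ℍ) : ℂ), mdifferentiable_coe.comp (md_smul g)⟩

/-- the derivative of `τ ↦ g τ` -/
def dr (g : G) : Hol := dH (mv g)

theorem dr_gl {g : G} {s : GL (Fin 2) ℝ} (h0 : 0 < s.det.val) (hs : ∀ τ : ℍ, g • τ = s • τ)
    (τ : ℍ) : (dr g).1 τ = (s.det.val : ℂ) / denom s τ ^ 2 :=
  dH_eq (hasStrictDerivAt_smul h0 τ).hasDerivAt (Eventually.of_forall fun σ => by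
    rw [ofComplex_apply, ← hs]
    rfl)

theorem norm_dr (g : G) (τ : ℍ) : ‖(dr g).1 τ‖ = (g • τ).im / τ.im := by
  obtain ⟨s, hs⟩ := Mo.ex g
  have h1 : ((s : GL (Fin 2) ℝ)).det.val = 1 := by simp
  rw [dr_gl (det_pos s) hs, hs]
  have h2 := im_smul_eq_div_normSq (s : GL (Fin 2) ℝ) τ
  rw [h1] at h2 ⊢
  rw [show s • τ = (s : GL (Fin 2) ℝ) • τ from rfl, h2, norm_div, norm_pow, Complex.sq_norm]
  have := τ.im_pos.ne'
  simp
  field_simp

theorem dr_ne (g : G) (τ : ℍ) : (dr g).1 τ ≠ 0 := by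
  rw [← norm_pos_iff, norm_dr]
  exact div_pos (g • τ).im_pos τ.im_pos

theorem jdr_ne (g : G) : jm (dr g) ≠ 0 := jm_ne' (dr_ne g I)

theorem od_dr (g : G) (τ : ℍ) : od τ (jm (dr g)) = 0 := od_unit (dr_ne g τ)

/-- the chain rule -/
theorem dH_ac (g : G) (f : Hol) : dH (acH g f) = acH g (dH f) * dr g⁻¹ := by
  refine Subtype.ext (funext fun τ => dH_eq (g := (f.1 ∘ ofComplex) ∘ ((mv g⁻¹).1 ∘ ofComplex))
    (HasDerivAt.comp _ ?_ (hasD (mv g⁻¹) τ)) (Eventually.of_forall fun σ => ?_))
  · rw [Function.comp_apply, ofComplex_apply]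
    exact hasD f (g⁻¹ • τ)
  · simp only [Function.comp_apply, ofComplex_apply, mv]
    rfl

theorem dr_mul (g h : G) (τ : ℍ) : (dr (g * h)).1 τ = (dr g).1 (h • τ) * (dr h).1 τ := by
  have e : mv (g * h) = acH h⁻¹ (mv g) := Subtype.ext (funext fun σ => by
    rw [acH_apply, inv_inv]
    show (((g * h) • σ : ℍ) : ℂ) = _
    rw [mul_smul]
    rfl)
  rw [dr, e, dH_ac, inv_inv]
  show (dH (mv g)).1 (h⁻¹⁻¹ • τ) * _ = _
  rw [inv_inv]
  rfl

theorem dr_triv {g : G} (h : ∀ τ : ℍ, g • τ = τ) (τ : ℍ) : (dr g).1 τ = 1 :=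
  dH_eq (hasDerivAt_id (τ : ℂ)) (Eventually.of_forall fun σ => congrArg UpperHalfPlane.coe (h σ))

theorem dr_one (τ : ℍ) : (dr (1 : G)).1 τ = 1 := dr_triv (one_smul G) τ

theorem dr_pow {g : G} {a : ℍ} (h : g • a = a) (n : ℕ) : (dr (g ^ n)).1 a = (dr g).1 a ^ n := by
  induction n with
  | zero => rw [pow_zero, pow_zero, dr_one]
  | succ n ih => rw [pow_succ, dr_mul, h, ih, pow_succ]

theorem DM_ac (g : G) (y : Mer) : DM (ac g y) = ac g (DM y) * jm (dr g⁻¹) := by
  obtain ⟨u, v, v0, e⟩ := ex_frac y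
  have h1 := congrArg (fun z => DM (ac g z)) e
  have h2 := congrArg (fun z => ac g (DM z) * jm (dr g⁻¹)) e
  simp only [map_mul, DM_mul, ac_jm, DM_jm, dH_ac, map_add] at h1 h2
  have h3 : jm (acH g v) ≠ 0 := jm_ne ((map_ne_zero_iff _ (acH g).injective).2 v0)
  refine mul_left_cancel₀ h3 ?_
  linear_combination h1 - h2

/-- an element which fixes `a` with derivative one acts trivially -/
theorem triv_of_dr {g : G} {a : ℍ} (h : g • a = a) (h1 : (dr g).1 a = 1) (τ : ℍ) : g • τ = τ := by
  obtain ⟨s, hs⟩ := Mo.ex g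
  rw [dr_gl (det_pos s) hs] at h1
  rw [hs] at h ⊢
  have hd : ((s : GL (Fin 2) ℝ)).det.val = 1 := by simp
  have h2 : ((s 1 0 : ℝ) * (a : ℂ) + (s 1 1 : ℝ)) ^ 2 = 1 := by
    rw [hd, div_eq_one_iff_eq (pow_ne_zero _ (denom_ne_zero _ _))] at h1
    simpa [denom] using h1.symm
  have hc : s 1 0 = 0 := by
    have h3 : (s 1 0 * a.im) = 0 := by
      rcases sq_eq_one_iff.1 h2 with h3 | h3
      · simpa using congrArg Complex.im h3
      · simpa using congrArg Complex.im h3
    exact (mul_eq_zero.1 h3).resolve_right a.im_pos.ne'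
  have hdet := s.det_coe
  rw [Matrix.det_fin_two, hc, mul_zero, sub_zero] at hdet
  have hd2 : s 1 1 ^ 2 = 1 := by
    rw [hc] at h2
    exact_mod_cast (by simpa using h2 : ((s 1 1 : ℝ) : ℂ) ^ 2 = 1)
  have had : s 0 0 = s 1 1 := by linear_combination s 1 1 * hdet - s 0 0 * hd2
  have hd0 : ((s 1 1 : ℝ) : ℂ) ≠ 0 := by
    intro e
    have : s 1 1 = 0 := by exact_mod_cast e
    rw [this] at hd2
    norm_num at hd2
  have hb : ((s 0 1 : ℝ) : ℂ) = 0 := by
    have h4 := congrArg (fun τ : ℍ => (τ : ℂ)) h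
    simp only [coe_specialLinearGroup_apply, hc, had] at h4
    simp at h4
    field_simp at h4
    linear_combination h4
  apply UpperHalfPlane.ext
  simp only [coe_specialLinearGroup_apply, hc, had]
  simp [hb, hd0]

end

end Vale.Agent.P022K.F0.Cf
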