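import Vale.Agent.P022K.F0.Cf.Fld
import Vale.Agent.P025.R2.H492.Canon3
import Vale.Agent.P027M.K.Loc

/-!
# P022K, block F0, rows CF, RAT, GEN, POI, VOL for a discrete cocompact group (helper63)
-/

set_option autoImplicit false
set_option linter.unusedSectionVars false

open UpperHalfPlane Filter Topology IntermediateField
open scoped Manifold MatrixGroups

noncomputable section

namespace Vale.Agent.P022K.F0.Cf

open Vale.Agent.P022.H218.L3 Vale.Agent.P019P P027M.K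

variable {G : Type*} [Group G] [MulAction G ℍ] [Mo G] {Γ : Subgroup G}

/-! ### places -/

/-- the place of a point -/
def Fu.pt (h : Fu Γ) (a : ℍ) : Plk ℂ (KF Γ) :=
  ⟨(pl a).comap (algebraMap (KF Γ) Mer), fun c => reg_const a c, fun e => by
    obtain ⟨x, h1, h2⟩ := h.ex_zero a
    have h3 : (⟨x⁻¹, inv_mem h1⟩ : KF Γ) ∈ (pl a).comap (algebraMap (KF Γ) Mer) :=
      e ▸ ValuationSubring.mem_top _
    have h4 : Reg a x⁻¹ := h3
    rw [reg_iff, od_inv, inv_eq_zero] at h4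
    rcases h4 with h4 | h4
    · rw [h4, od_zero] at h2
      exact lt_irrefl _ h2
    · omega⟩

theorem Fu.mem_pt (h : Fu Γ) {a : ℍ} {y : KF Γ} : y ∈ (h.pt a).1 ↔ Reg a y.1 := Iff.rfl

theorem Fu.pt_eq (h : Fu Γ) {a b : ℍ} : h.pt a = h.pt b ↔ ∃ γ ∈ Γ, γ • a = b := by
  constructor
  · intro e
    by_contra hn
    push Not at hn
    obtain ⟨x, h1, h2, h3⟩ := h.sep hn
    have h4 : (⟨x, h1⟩ : KF Γ) ∈ (h.pt a).1 := reg_iff.2 (Or.inr h2.le)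
    rw [e, h.mem_pt, reg_iff] at h4
    rcases h4 with h4 | h4
    · rw [show x = 0 from h4, od_zero] at h2
      exact lt_irrefl _ h2
    · exact absurd h4 (not_le.2 h3)
  · rintro ⟨γ, hγ, rfl⟩
    refine Subtype.ext (ValuationSubring.ext _ _ fun y => ?_)
    rw [h.mem_pt, h.mem_pt, (mf_zero.2 y.2).reg hγ]

theorem ex_pole {k F : Type*} [Field k] [Field F] [Algebra k F] [CFF k F] (P : Plk k F) :
    ∃ y : F, (∀ c, y ≠ algebraMap k F c) ∧ ∀ Q : Plk k F, Q ≠ P → y ∈ Q.1 := by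
  obtain ⟨g, hg, -⟩ := exists_riem k F
  have h1 := hg (Finsupp.single P (g + 1))
  rw [dg_sgl] at h1
  have h2 : ¬ LL k (Finsupp.single P ((g : ℤ) + 1)) ≤ LL k (0 : Plk k F →₀ ℤ) := fun e => by
    have := Submodule.finrank_mono e
    rw [l_zero] at this
    omega
  obtain ⟨y, h3, h4⟩ := SetLike.not_le_iff_exists.1 h2
  refine ⟨y, fun c e => h4 (mem_LL.2 (Or.inr fun Q => by rw [e, ord_const]; simp)), fun Q hQ => ?_⟩
  rw [mem_iff_ord]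
  refine (mem_LL.1 h3).imp id fun h5 => ?_
  simpa [Finsupp.single_eq_of_ne hQ] using h5 Q

theorem Fu.pt_onto (h : Fu Γ) : Function.Surjective h.pt := fun P => by
  have := h.cff
  obtain ⟨y, h1, h2⟩ := ex_pole P
  by_contra hn
  obtain ⟨c, hc⟩ := h.liou y.2 fun a => h2 (h.pt a) fun e => hn ⟨a, e⟩
  exact h1 c (Subtype.ext hc)

section

variable [CFF ℂ (KF Γ)]

theorem Fu.ord_nonneg (h : Fu Γ) (a : ℍ) (y : KF Γ) : 0 ≤ ord (h.pt a) y ↔ 0 ≤ od a y.1 := by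
  by_cases hy : y = 0
  · rw [hy, ord_zero, ZeroMemClass.coe_zero, od_zero]
  · have := mem_iff_ord (h.pt a) y
    rw [h.mem_pt, reg_iff, or_iff_right hy, ZeroMemClass.coe_eq_zero, or_iff_right hy] at this
    exact this.symm

theorem Fu.ord_pos (h : Fu Γ) (a : ℍ) (y : KF Γ) : 0 < ord (h.pt a) y ↔ 0 < od a y.1 := by
  have := h.ord_nonneg a y⁻¹
  rw [ord_inv, IntermediateField.coe_inv, od_inv] at this
  omega

theorem Fu.val_iff (h : Fu Γ) (a : ℍ) (y : KF Γ) (c : ℂ) :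
    Val (h.pt a) y c ↔ Reg a y.1 ∧ ev a y.1 = c := by
  have e : ((y - algebraMap ℂ (KF Γ) c : KF Γ) : Mer) = y.1 + algebraMap ℂ Mer (-c) := by
    rw [map_neg, ← sub_eq_add_neg]
    rfl
  have k : Val (h.pt a) y c ↔ y.1 + algebraMap ℂ Mer (-c) = 0 ∨
      0 < od a (y.1 + algebraMap ℂ Mer (-c)) := by
    rw [Val, mem_Mge, ← e, ← h.ord_pos, ZeroMemClass.coe_eq_zero]
    rfl
  rw [k]
  constructor
  · intro h1
    have h2 : Reg a (y.1 + algebraMap ℂ Mer (-c)) := reg_iff.2 (h1.imp id le_of_lt)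
    have h3 : ev a (y.1 + algebraMap ℂ Mer (-c)) = 0 := by
      by_cases h0 : y.1 + algebraMap ℂ Mer (-c) = 0
      · rw [h0, ev_zero]
      · exact (ev_eq_zero h0 h2).2 (h1.resolve_left h0)
    have h4 : Reg a y.1 := by simpa using h2.add (reg_const a c)
    rw [ev_add h4 (reg_const a _), ev_const] at h3
    exact ⟨h4, by linear_combination h3⟩
  · rintro ⟨h1, h2⟩
    by_cases h0 : y.1 + algebraMap ℂ Mer (-c) = 0
    · exact Or.inl h0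
    · refine Or.inr ((ev_eq_zero h0 (h1.add (reg_const a _))).1 ?_)
      rw [ev_add h1 (reg_const a _), ev_const, h2, add_neg_cancel]

end

/-- only elements which act trivially fix `a` -/
def Gen (Γ : Subgroup G) (a : ℍ) : Prop := ∀ γ ∈ Γ, γ • a = a → ∀ τ : ℍ, γ • τ = τ

theorem Fr.gen (h : Fr Γ) (a : ℍ) : Gen Γ a := fun γ hγ e τ => by rw [h γ hγ a e, one_smul]

theorem Gen.ex_fm (h : Fu Γ) {a : ℍ} (ha : Gen Γ a) {χ : G → ℂ} (hχ : Ch Γ χ)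
    (h1 : ∀ γ ∈ Γ, (∀ τ : ℍ, γ • τ = τ) → χ γ = 1) :
    ∀ᶠ n in atTop, ∃ F : Hol, Fm Γ n χ F ∧ F.1 a ≠ 0 := by
  simpa only [one_mul] using Cf.ex_fm h hχ (a := a) one_pos fun γ hγ e =>
    ⟨h1 γ hγ (ha γ hγ e), by rw [dr_triv (ha γ hγ e), one_pow]⟩

/-- a meromorphic one-form without zero and pole at `a` -/
theorem Gen.ex_eta (h : Fu Γ) {a : ℍ} (ha : Gen Γ a) : ∃ η, η ≠ 0 ∧ MF Γ 1 η ∧ od a η = 0 := by
  obtain ⟨n, hn⟩ := eventually_atTop.1 (ha.ex_fm h (ch_one Γ) fun _ _ _ => rfl)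
  obtain ⟨F, h1, h2⟩ := hn n le_rfl
  obtain ⟨H, h3, h4⟩ := hn (n + 1) n.le_succ
  refine ⟨jm H * (jm F)⁻¹, mul_ne_zero (jm_ne' h4) (inv_ne_zero (jm_ne' h2)), ?_, ?_⟩
  · simpa using (mf_jm.2 h3).mul (mf_jm.2 h1).inv
  · rw [od_mul a (jm_ne' h4) (inv_ne_zero (jm_ne' h2)), od_inv, od_unit h2, od_unit h4]
    rfl

theorem Gen.ex_one (h : Fu Γ) {a : ℍ} (ha : Gen Γ a) : ∃ x ∈ KF Γ, od a x = 1 := by
  obtain ⟨η, η0, h1, h2⟩ := ha.ex_eta h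
  obtain ⟨x, h3, h4⟩ := h.ex_zero a
  have x0 : x ≠ 0 := fun e => by
    rw [e, od_zero] at h4
    exact lt_irrefl _ h4
  have h5 := isOd_D h4.ne'
  refine ⟨x * (η / DM x), mul_mem h3 (h1.div_mem (mf_D h3)), ?_⟩
  rw [od_mul a x0 (div_ne_zero η0 h5.ne), od_div a η0 h5.ne, h5.eq, h2]
  ring

theorem Gen.ord_eq [CFF ℂ (KF Γ)] (h : Fu Γ) {a : ℍ} (ha : Gen Γ a) (y : KF Γ) :
    ord (h.pt a) y = od a y.1 := by
  have h1 : IsOrd (h.pt a).1 fun y : KF Γ => od a y.1 :=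
    { zero := od_zero a
      mul := fun x z hx hz => od_mul a (fun e => hx (Subtype.ext e)) fun e => hz (Subtype.ext e)
      add := fun x z hx hz h => od_add a (fun e => hx (Subtype.ext e))
        (fun e => hz (Subtype.ext e)) fun e => h (Subtype.ext e)
      mem := fun x => by rw [h.mem_pt, reg_iff, ZeroMemClass.coe_eq_zero]
      one := by
        obtain ⟨x, h1, h2⟩ := ha.ex_one h
        exact ⟨⟨x, h1⟩, h2⟩ }
  exact congrFun ((ord_spec _).unique h1) y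

theorem Fu.ex_gen (h : Fu Γ) : ∃ a, Gen Γ a := by
  classical
  have h1 : ∏ γ ∈ (h.disc 2).toFinset with ¬ ∀ τ : ℍ, γ • τ = τ, (mv γ - mv (1 : G)) ≠ 0 := by
    refine Finset.prod_ne_zero_iff.2 fun γ hγ e => (Finset.mem_filter.1 hγ).2 fun τ => ?_
    have : ((γ • τ : ℍ) : ℂ) = ((1 : G) • τ : ℍ) :=
      congrFun (congrArg Subtype.val (sub_eq_zero.1 e)) τ
    rw [one_smul] at this
    exact UpperHalfPlane.ext this
  generalize hH : ∏ γ ∈ (h.disc 2).toFinset with ¬ ∀ τ : ℍ, γ • τ = τ, (mv γ - mv (1 : G)) = H at h1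
  have h2 : ∃ a ∈ Metric.ball I 1, H.1 a ≠ 0 := by
    by_contra hn
    push Not at hn
    refine h1 (Subtype.ext (eq_zero_of_frequently H.2 (τ := I) (Eventually.frequently ?_)))
    exact eventually_nhdsWithin_of_eventually_nhds
      (eventually_of_mem (Metric.ball_mem_nhds I one_pos) hn)
  obtain ⟨a, ha, h3⟩ := h2
  refine ⟨a, fun γ hγ e => ?_⟩
  by_contra hn
  apply h3
  have h4 : γ ∈ (h.disc 2).toFinset.filter fun γ => ¬ ∀ τ : ℍ, γ • τ = τ := by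
    refine Finset.mem_filter.2 ⟨(h.disc 2).mem_toFinset.2 ⟨hγ, ?_⟩, hn⟩
    have h5 := dist_triangle (γ • I) (γ • a) I
    rw [dist_sm, e, dist_comm I a] at h5
    linarith [Metric.mem_ball.1 ha]
  rw [← hH, ← Finset.mul_prod_erase _ _ h4]
  show (((γ • a : ℍ) : ℂ) - ((1 : G) • a : ℍ)) * _ = 0
  rw [e, one_smul, sub_self, zero_mul]

/-! ### functions with a character -/

theorem Fu.poi (h : Fu Γ) {χ : G → ℂ} (hχ : Ch Γ χ)
    (h1 : ∀ γ ∈ Γ, (∀ τ : ℍ, γ • τ = τ) → χ γ = 1) :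
    ∃ y : Mer, y ≠ 0 ∧ ∀ γ ∈ Γ, ac γ⁻¹ y = algebraMap ℂ Mer (χ γ) * y := by
  obtain ⟨a, ha⟩ := h.ex_gen
  obtain ⟨n, ⟨F, h2, h3⟩, H, h4, h5⟩ :=
    ((ha.ex_fm h hχ h1).and (ha.ex_fm h (ch_one Γ) fun _ _ _ => rfl)).exists
  refine ⟨jm F / jm H, div_ne_zero (jm_ne' h3) (jm_ne' h5), fun γ hγ => ?_⟩
  have h6 := h2.ac_eq hγ
  have h7 := h4.ac_eq hγ
  rw [map_one, one_mul] at h7
  rw [map_div₀, ← mul_div_mul_right _ _ (pow_ne_zero n (jdr_ne γ)), h6, h7, mul_div_assoc]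

/-! ### quotients of forms -/

theorem Fu.ex_fm_ne (h : Fu Γ) (a : ℍ) :
    ∃ (k : ℕ) (F : Hol), 0 < k ∧ Fm Γ k (fun _ => 1) F ∧ F.1 a ≠ 0 := by
  obtain ⟨N, N0, hN⟩ := h.ex_ord a
  obtain ⟨n, ⟨F, h1, h2⟩, h3⟩ := ((ex_fm h (ch_one Γ) N0 fun γ hγ e => ⟨rfl, hN γ hγ e⟩).and
    (eventually_gt_atTop 0)).exists
  exact ⟨_, F, Nat.mul_pos N0 h3, h1, h2⟩

theorem Fu.ex_mul (h : Fu Γ) (s : Multiset ℍ) : ∃ (k : ℕ) (g u : Hol), g ≠ 0 ∧
    MF Γ k (jm g) ∧ jm g = jm u * ps s := by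
  induction s using Multiset.induction_on with
  | empty => exact ⟨0, 1, 1, one_ne_zero, mf_zero.2 (by simp [jm]), by simp [ps]⟩
  | cons a s ih =>
    obtain ⟨k, g, u, g0, h1, h2⟩ := ih
    obtain ⟨b, hb⟩ := h.ex_ineq a
    obtain ⟨l, F, -, h3, h4, h5⟩ := ex_sep h hb
    obtain ⟨m, v, hv, e⟩ := ex_fac a (ne_of_val h5)
    rcases m with _ | m
    · exact absurd (by simpa [e] using h4) hv
    refine ⟨l + k, F * g, tz a ^ m * v * u, mul_ne_zero (ne_of_val h5) g0, ?_, ?_⟩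
    · simpa [jm] using (mf_jm.2 h3).mul h1
    · simp only [jm, map_mul, map_pow, ps_cons, e] at h2 ⊢
      rw [h2]
      ring

theorem Fu.rat (h : Fu Γ) {l : ℕ} {y : Mer} (hy : MF Γ l y) : ∃ (k : ℕ) (f g : Hol),
    Fm Γ (l + k) (fun _ => 1) f ∧ Fm Γ k (fun _ => 1) g ∧ g ≠ 0 ∧ y * jm g = jm f := by
  obtain ⟨K, hK, hc⟩ := h.ex_K
  obtain ⟨s, hs⟩ := ex_ps hK y
  obtain ⟨k, g, u, g0, h1, h2⟩ := h.ex_mul s
  have h3 := hy.mul h1
  obtain ⟨f, hf, -⟩ := ex_hol (y := y * jm g) fun a => by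
    obtain ⟨γ, hγ, h4⟩ := hc a
    rw [← h3.reg hγ, h2, mul_comm y, mul_assoc]
    exact (reg_jm _ u).mul (hs _ h4)
  exact ⟨k, f, g, mf_jm.1 (by rwa [hf, ← Nat.cast_add] at h3), mf_jm.1 h1, g0, hf⟩

/-! ### the genus -/

/-- the derivation `y ↦ y' / η` -/
def DK {η : Mer} (hη : MF Γ 1 η) : Derivation ℂ (KF Γ) (KF Γ) where
  toFun y := ⟨DM y.1 / η, (mf_D y.2).div_mem hη⟩
  map_add' y z := Subtype.ext (by
    show DM (y.1 + z.1) / η = DM y.1 / η + DM z.1 / η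
    rw [map_add, add_div])
  map_smul' c y := Subtype.ext (by
    show DM (c • y.1) / η = c • (DM y.1 / η)
    rw [Derivation.map_smul, smul_div_assoc])
  map_one_eq_zero' := Subtype.ext (by
    show DM 1 / η = 0
    rw [Derivation.map_one_eq_zero, zero_div])
  leibniz' y z := Subtype.ext (by
    show DM (y.1 * z.1) / η = y.1 * (DM z.1 / η) + z.1 * (DM y.1 / η)
    rw [DM_mul]
    ring)

theorem DK_val {η : Mer} (hη : MF Γ 1 η) (y : KF Γ) : (DK hη y).1 = DM y.1 / η := rfl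

theorem DK_ne (h : Fu Γ) {η : Mer} (hη : MF Γ 1 η) (η0 : η ≠ 0) : DK hη ≠ 0 := fun e => by
  obtain ⟨x, h1, h2⟩ := h.ex_zero I
  have h3 := DK_val hη ⟨x, h1⟩
  rw [e] at h3
  exact div_ne_zero (isOd_D h2.ne').ne η0 h3.symm

theorem Gen.ordD [CFF ℂ (KF Γ)] (h : Fu Γ) {a : ℍ} (ha : Gen Γ a) {η : Mer} (hη : MF Γ 1 η)
    (η0 : η ≠ 0) : P025H492.ordD (DK hη) (h.pt a) = -od a η := by
  obtain ⟨x, h1, h2⟩ := ha.ex_one h
  have h3 := isOd_D (a := a) (y := x) (by omega)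
  rw [P025H492.ordD_eq (DK_ne h hη η0) (s := ⟨x, h1⟩) (by rw [ha.ord_eq h, h2]), ha.ord_eq h,
    DK_val, od_div a h3.ne η0, h3.eq, h2]
  ring

/-- the divisor of a form of weight `2 k` has the degree `k (2 g - 2)` -/
theorem Fu.dg_mf [CFF ℂ (KF Γ)] (h : Fu Γ) (hf : ∀ a, Gen Γ a) {k : ℤ} {y : Mer} (hy : MF Γ k y)
    (y0 : y ≠ 0) : ∃ E : Plk ℂ (KF Γ) →₀ ℤ, (∀ a, E (h.pt a) = od a y) ∧
      dg E = k * (2 * (gen ℂ (KF Γ) : ℤ) - 2) := by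
  obtain ⟨η, η0, hη, -⟩ := (hf I).ex_eta h
  have h1 : MF Γ k (η ^ k) := fun γ hγ => by
    have := hη γ hγ
    rw [zpow_one] at this
    rw [map_zpow₀, ← mul_zpow, this]
  refine ⟨dv ℂ (⟨_, hy.div_mem h1⟩ : KF Γ) - k • P025H492.dvD (DK hη), fun a => ?_, ?_⟩
  · rw [Finsupp.sub_apply, Finsupp.smul_apply, dv_apply, P025H492.dvD_apply (DK_ne h hη η0),
      (hf a).ord_eq h, (hf a).ordD h hη η0, od_div a y0 (zpow_ne_zero _ η0), od_zpow, smul_eq_mul]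
    ring
  · rw [map_sub, map_zsmul, dg_dv, P025H492.dg_dvD (DK_ne h hη η0), smul_eq_mul]
    ring

theorem Fu.two_le_gen [CFF ℂ (KF Γ)] (h : Fu Γ) (hf : ∀ a, Gen Γ a) : 2 ≤ gen ℂ (KF Γ) := by
  obtain ⟨b, hb⟩ := h.ex_ineq I
  obtain ⟨k, F, k0, h1, h2, h3⟩ := ex_sep h hb
  obtain ⟨E, h4, h5⟩ := h.dg_mf hf (mf_jm.2 h1) (jm_ne' h3)
  have h6 : Finsupp.single (h.pt I) 1 ≤ E := fun P => by
    obtain ⟨a, rfl⟩ := h.pt_onto P
    by_cases e : h.pt a = h.pt I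
    · rw [e, Finsupp.single_eq_same, h4]
      exact (od_jm_pos (ne_of_val h3)).2 h2
    · rw [Finsupp.single_eq_of_ne e, h4]
      exact od_jm a F
  have h7 := dg_mono h6
  rw [dg_sgl, h5] at h7
  by_contra hn
  have h8 : 2 * (gen ℂ (KF Γ) : ℤ) - 2 ≤ 0 := by omega
  nlinarith [Int.natCast_nonneg k]

/-! ### finite generation -/

theorem Fu.vol (h : Fu Γ) : ∃ S : Set G, S.Finite ∧ Γ = Subgroup.closure S := by
  obtain ⟨r, hr⟩ := h.cpt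
  refine ⟨_, h.disc (2 * (r + 1)), le_antisymm (fun δ hδ => ?_)
    ((Subgroup.closure_le _).2 fun γ hγ => hγ.1)⟩
  obtain ⟨C, hC⟩ : ∃ C, C = Subgroup.closure {γ : G | γ ∈ Γ ∧ dist (γ • I) I ≤ 2 * (r + 1)} :=
    ⟨_, rfl⟩
  rw [← hC]
  have r0 : 0 < r + 1 := by
    obtain ⟨γ, -, h1⟩ := hr I
    linarith [dist_nonneg (x := γ • I) (y := I)]
  have op : ∀ p : G → Prop, IsOpen {τ : ℍ | ∃ γ, p γ ∧ dist (γ • τ) I < r + 1} := fun p => by
    rw [Set.ofPred_exists]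
    refine isOpen_iUnion fun γ => ?_
    by_cases e : p γ
    · simpa only [e, true_and] using isOpen_lt ((cont_sm γ).dist continuous_const) continuous_const
    · simp [e]
  by_contra hn
  obtain ⟨τ, -, ⟨γ, ⟨h1, h2⟩, h3⟩, γ', ⟨h4, h5⟩, h6⟩ := isPreconnected_univ _ _
    (op fun γ => γ ∈ Γ ∧ γ ∈ C) (op fun γ => γ ∈ Γ ∧ γ ∉ C) (fun τ _ => by
      obtain ⟨γ, h1, h2⟩ := hr τ
      by_cases e : γ ∈ C
      · exact Or.inl ⟨γ, ⟨h1, e⟩, by linarith⟩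
      · exact Or.inr ⟨γ, ⟨h1, e⟩, by linarith⟩)
    ⟨I, trivial, 1, ⟨one_mem _, one_mem _⟩, by rwa [one_smul, dist_self]⟩
    ⟨δ⁻¹ • I, trivial, δ, ⟨hδ, hn⟩, by rwa [smul_inv_smul, dist_self]⟩
  have h7 : γ' * γ⁻¹ ∈ C := by
    rw [hC]
    refine Subgroup.subset_closure ⟨mul_mem h4 (inv_mem h1), ?_⟩
    have h8 := dist_triangle ((γ' * γ⁻¹) • I) ((γ' * γ⁻¹) • γ • τ) I
    rw [dist_sm, smul_smul, inv_mul_cancel_right, dist_comm I] at h8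
    linarith
  exact h5 (by simpa using mul_mem h7 h2)

end Vale.Agent.P022K.F0.Cf
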