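import Vale.Agent.P022K.F0.Twb
import Vale.Agent.P022K.F0.Cf.Pts

/-!
# P022K, block F0: the rows CF, POI, RAT, GEN, VOL (helper63)
-/

set_option autoImplicit false
set_option linter.unusedSectionVars false

open UpperHalfPlane Filter Topology
open scoped MatrixGroups

noncomputable section

namespace Vale.Agent.P022K.Sh

open Vale.Agent.P022 Vale.Agent.P022.H218.L3 Vale.Agent.P019P P027M.K Vale.Agent.P022K.F0.Cf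

instance moGP : Mo GP := ⟨fun g => by
  have h0 : 0 < (g : GL (Fin 2) ℝ).det.val := g.2
  obtain ⟨c, c0, hc⟩ : ∃ c : ℝ, c ≠ 0 ∧ c ^ 2 * (g : GL (Fin 2) ℝ).det.val = 1 :=
    ⟨(Real.sqrt (g : GL (Fin 2) ℝ).det.val)⁻¹, inv_ne_zero (Real.sqrt_pos.2 h0).ne', by
      rw [inv_pow, Real.sq_sqrt h0.le, inv_mul_cancel₀ h0.ne']⟩
  obtain ⟨s, hs⟩ : ∃ s : SL(2, ℝ), ∀ i j, s i j = c * (g : GL (Fin 2) ℝ) i j :=
    ⟨⟨c • ((g : GL (Fin 2) ℝ) : Matrix (Fin 2) (Fin 2) ℝ), by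
      rw [Matrix.det_smul, Fintype.card_fin]
      exact hc⟩, fun _ _ => rfl⟩
  refine ⟨s, fun τ => UpperHalfPlane.ext ?_⟩
  rw [coe_specialLinearGroup_apply, show g • τ = (g : GL (Fin 2) ℝ) • τ from rfl,
    coe_smul_of_det_pos h0, num, denom,
    ← mul_div_mul_left _ _ (show (c : ℂ) ≠ 0 by exact_mod_cast c0)]
  simp [hs, mul_add, mul_assoc]⟩

/-- the group of the Moebius transformations -/
def MG : Subgroup (Equiv.Perm ℍ) := (MulAction.toPermHom GP ℍ).range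

instance moMG : Mo MG := ⟨fun g => by
  obtain ⟨_, g, rfl⟩ := g
  exact Mo.ex g⟩

theorem actM_eq (g : GP) : actM g = ac g := rfl

namespace Tw

variable {G0 G : Type} [Group G0] [Group G] (T : Tw G0 G) {Γ : Subgroup G0}

/-- the Moebius transformation of an element -/
def rho : G0 →* MG := (MulAction.toPermHom GP ℍ).rangeRestrict.comp T.r

theorem rho_smul (γ : G0) (τ : ℍ) : T.rho γ • τ = T.r γ • τ := rfl

theorem ker_rho : T.rho.ker = T.Z0 := Subgroup.ext fun _ => Subtype.ext_iff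

theorem act_eq (γ : G0) : T.act γ = ac (T.rho γ) := by
  show IsFractionRing.fieldEquivOfAlgEquivHom (A := ℂ) (B := Hol) ℂ Mer (actH (T.r γ)) =
    IsFractionRing.fieldEquivOfAlgEquivHom (A := ℂ) (B := Hol) ℂ Mer (acH (T.rho γ))
  rfl

theorem KF_eq (Γ : Subgroup G0) : T.KF Γ = F0.Cf.KF (Γ.map T.rho) := by
  ext y
  rw [T.mem_KF, F0.Cf.mem_KF]
  constructor
  · rintro h _ ⟨γ, hγ, rfl⟩
    rw [← T.act_eq, h γ hγ]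
  · intro h γ hγ
    rw [T.act_eq, h _ ⟨γ, hγ, rfl⟩]

theorem dr_rho (γ : G0) (τ : ℍ) : (dr (T.rho γ)).1 τ = T.mu γ τ :=
  dr_gl (g := T.rho γ) (s := (T.r γ : GL (Fin 2) ℝ)) (T.r γ).2 (fun _ => rfl) τ

theorem fm_iff {k : ℕ} {f : Hol} : T.Fm Γ k f ↔ F0.Cf.Fm (Γ.map T.rho) k (fun _ => 1) f := by
  have k : ∀ (γ : G0) (τ : ℍ), f.1 (T.r γ • τ) * ((T.r γ : GL (Fin 2) ℝ).det.val : ℂ) ^ k =
      denom (T.r γ : GL (Fin 2) ℝ) τ ^ (2 * k) * f.1 τ ↔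
      f.1 (T.rho γ • τ) * (dr (T.rho γ)).1 τ ^ k = 1 * f.1 τ := fun γ τ => by
    rw [dr_rho, mu, div_pow, ← pow_mul, ← mul_div_assoc, one_mul,
      div_eq_iff (pow_ne_zero _ (denom_ne_zero _ _)), mul_comm (f.1 τ), rho_smul]
  constructor
  · rintro h _ ⟨γ, hγ, rfl⟩ τ
    exact (k γ τ).1 (h.2 γ hγ τ)
  · exact fun h => ⟨f.2, fun γ hγ τ => (k γ τ).2 (h _ ⟨γ, hγ, rfl⟩ τ)⟩

variable {T}

theorem Fu.cf (h : T.Fu Γ) : F0.Cf.Fu (Γ.map T.rho) where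
  disc r := by
    obtain ⟨S, hS⟩ := h.pd _ (isCompact_closedBall I r)
    refine (S.finite_toSet.image T.rho).subset ?_
    rintro _ ⟨⟨γ, hγ, rfl⟩, h1⟩
    obtain ⟨s, hs, h2⟩ := hS γ hγ ⟨I, Metric.mem_closedBall_self (dist_nonneg.trans h1), h1⟩
    rw [← T.ker_rho, MonoidHom.mem_ker, map_mul, map_inv, inv_mul_eq_one] at h2
    exact ⟨s, hs, h2⟩
  cpt := by
    obtain ⟨K, hK, h1⟩ := h.cc
    obtain ⟨r, hr⟩ := hK.isBounded.subset_closedBall I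
    refine ⟨r, fun τ => ?_⟩
    obtain ⟨γ, hγ, h2⟩ := h1 τ
    exact ⟨_, ⟨γ, hγ, rfl⟩, hr h2⟩

theorem Fr.gen (h : T.Fr Γ) (a : ℍ) : Gen (Γ.map T.rho) a := by
  rintro _ ⟨γ, hγ, rfl⟩ e
  exact T.mem_Z0.1 (h γ hγ a e)

theorem cf_aux {Γ : Subgroup MG} (h : F0.Cf.Fu Γ) {K : IntermediateField ℂ Mer}
    (hK : K = F0.Cf.KF Γ) [CFF ℂ K] : (∃ pt : ℍ → Plk ℂ K, Function.Surjective pt ∧
      (∀ τ τ', pt τ = pt τ' ↔ ∃ γ ∈ Γ, γ • τ = τ') ∧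
      (∀ τ (f : K) c, Val (pt τ) f c ↔ MVal τ f c) ∧
      ∀ τ, Gen Γ τ → ∀ f : K, ord (pt τ) f = od τ f) ∧ ((∀ a, Gen Γ a) → 2 ≤ gen ℂ K) := by
  subst hK
  exact ⟨⟨h.pt, h.pt_onto, fun _ _ => h.pt_eq, fun τ f c => by rw [h.val_iff, mval_iff],
    fun τ hτ f => hτ.ord_eq h f⟩, h.two_le_gen⟩

variable (T)

/-- **CF** -/
theorem cf : T.CF := fun Γ h => by
  have : CFF ℂ (T.KF Γ) := T.KF_eq Γ ▸ h.cf.cff
  obtain ⟨pt, h1, h2, h3, h4⟩ := (cf_aux h.cf (T.KF_eq Γ)).1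
  refine ⟨this, pt, h1, fun τ τ' => (h2 τ τ').trans ⟨?_, ?_⟩, h3, fun hf τ f f0 =>
    mord_iff.2 ⟨fun e => f0 (Subtype.ext e), (h4 τ (hf.gen τ) f).symm⟩⟩
  · rintro ⟨_, ⟨γ, hγ, rfl⟩, e⟩
    exact ⟨γ, hγ, e⟩
  · rintro ⟨γ, hγ, e⟩
    exact ⟨_, ⟨γ, hγ, rfl⟩, e⟩

/-- **GEN** -/
theorem gen : T.GEN := fun Γ h hf _ => (cf_aux h.cf (T.KF_eq Γ)).2 hf.gen

/-- **RAT** -/
theorem rat : T.RAT := fun Γ h => by
  refine ⟨fun φ hφ => ?_, fun τ => ?_⟩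
  · rw [T.KF_eq, ← mf_zero] at hφ
    obtain ⟨k, f, g, h1, h2, h3, h4⟩ := h.cf.rat (l := 0) hφ
    rw [zero_add] at h1
    exact ⟨k, f, g, T.fm_iff.2 h1, T.fm_iff.2 h2, h3, h4⟩
  · obtain ⟨k, F, h1, h2, h3⟩ := h.cf.ex_fm_ne τ
    exact ⟨k, F, h1, T.fm_iff.2 h2, h3⟩

theorem ex_desc {A B C : Type*} [Group A] [Group B] [CommGroup C] (ρ : A →* B) {Γ : Subgroup A}
    (χ : Γ →* C) (h : ∀ γ : Γ, γ.1 ∈ ρ.ker → χ γ = 1) : ∃ ψ : B → C,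
      (∀ γ : Γ, ψ (ρ γ)⁻¹ = χ γ) ∧ (∀ g ∈ Γ.map ρ, ∃ γ : Γ, ψ g = χ γ ∧ g⁻¹ = ρ γ) ∧
      ∀ g ∈ Γ.map ρ, ∀ g' ∈ Γ.map ρ, ψ (g * g') = ψ g * ψ g' := by
  classical
  obtain ⟨ψ, hψ⟩ : ∃ ψ : B → C, ∀ γ : Γ, ψ (ρ γ) = χ γ⁻¹ := by
    refine ⟨fun g => if e : ∃ γ : Γ, ρ γ = g then χ e.choose⁻¹ else 1, fun γ => ?_⟩
    have e : ∃ δ : Γ, ρ δ = ρ γ := ⟨γ, rfl⟩
    have h3 := h (e.choose⁻¹ * γ) (by
      rw [MonoidHom.mem_ker, Subgroup.coe_mul, Subgroup.coe_inv, map_mul, map_inv,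
        e.choose_spec, inv_mul_cancel])
    rw [map_mul, map_inv, inv_mul_eq_one] at h3
    simp only [dif_pos e, map_inv, h3]
  refine ⟨ψ, fun γ => by simpa using hψ γ⁻¹, ?_, ?_⟩
  · rintro _ ⟨γ, hγ, rfl⟩
    exact ⟨⟨γ, hγ⟩⁻¹, hψ ⟨γ, hγ⟩, by simp⟩
  · rintro _ ⟨γ, hγ, rfl⟩ _ ⟨δ, hδ, rfl⟩
    have := hψ (⟨γ, hγ⟩ * ⟨δ, hδ⟩)
    rw [mul_inv_rev, map_mul χ, ← hψ, ← hψ, mul_comm (ψ _)] at this
    rw [← map_mul]
    exact this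

/-- **POI** -/
theorem poi : T.POI := fun Γ h n n0 χ h1 h2 => by
  obtain ⟨ψ, h3, h4, h5⟩ := ex_desc T.rho χ (T.ker_rho ▸ h2)
  have hc : Ch (Γ.map T.rho) fun g => ψ g := by
    refine ⟨fun g hg g' hg' => by rw [h5 g hg g' hg', Units.val_mul], fun g hg => ?_⟩
    obtain ⟨γ, h6, -⟩ := h4 g hg
    refine Complex.norm_eq_one_of_pow_eq_one (n := n) ?_ n0.ne'
    rw [h6, ← Units.val_pow_eq_pow_val, h1, Units.val_one]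
  obtain ⟨y, y0, hy⟩ := h.cf.poi hc fun g hg e => by
    obtain ⟨γ, h6, h7⟩ := h4 g hg
    rw [h6, h2 γ (T.mem_Z0.2 fun τ => ?_), Units.val_one]
    rw [← T.rho_smul, ← h7, inv_smul_eq_iff, e]
  refine ⟨y, y0, fun γ => ?_⟩
  have := hy (T.rho γ)⁻¹ (inv_mem ⟨_, γ.2, rfl⟩)
  rwa [h3, inv_inv, ← T.act_eq] at this

/-- **VOL** -/
theorem vol : T.VOL := fun Γ h => by
  classical
  obtain ⟨S, h1, h2⟩ := h.cf.vol
  have h3 : ∀ s : S, ∃ γ ∈ Γ, T.rho γ = s := fun s =>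
    show s.1 ∈ Γ.map T.rho from h2 ▸ Subgroup.subset_closure s.2
  choose l h4 h5 using h3
  have := h1.to_subtype
  refine ⟨(Set.finite_range l).toFinset, ?_⟩
  rw [← T.ker_rho, ← Subgroup.comap_map_eq, MonoidHom.map_closure, Set.Finite.coe_toFinset,
    ← Set.range_comp, show T.rho ∘ l = Subtype.val from funext h5, Subtype.range_coe, ← h2,
    Subgroup.comap_map_eq_self (T.ker_rho ▸ h.z0)]

end Tw

end Vale.Agent.P022K.Sh
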