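import Vale.Agent.P022K.F0.Cf.Poin

/-!
# P022K, block F0, row CF: the field of invariant functions is a function field (helper63)
-/

set_option autoImplicit false
set_option linter.unusedSectionVars false

open UpperHalfPlane Filter Topology IntermediateField
open scoped Manifold MatrixGroups

noncomputable section

namespace Vale.Agent.P022K.F0.Cf

open Vale.Agent.P022.H218.L3 Vale.Agent.P019P

variable {G : Type*} [Group G] [MulAction G ℍ] [Mo G] {Γ : Subgroup G}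

/-! ### meromorphic forms -/

/-- meromorphic forms of weight `2 k` -/
def MF (Γ : Subgroup G) (k : ℤ) (y : Mer) : Prop := ∀ γ ∈ Γ, ac γ⁻¹ y * jm (dr γ) ^ k = y

theorem mf_zero {y : Mer} : MF Γ 0 y ↔ y ∈ KF Γ := by
  rw [mem_KF]
  constructor
  · intro h γ hγ
    simpa using h γ⁻¹ (inv_mem hγ)
  · intro h γ hγ
    rw [zpow_zero, mul_one, h _ (inv_mem hγ)]

theorem MF.mul {k l : ℤ} {y z : Mer} (h : MF Γ k y) (h' : MF Γ l z) : MF Γ (k + l) (y * z) :=
  fun γ hγ => by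
    rw [map_mul, zpow_add₀ (jdr_ne γ), mul_mul_mul_comm, h γ hγ, h' γ hγ]

theorem MF.inv {k : ℤ} {y : Mer} (h : MF Γ k y) : MF Γ (-k) y⁻¹ := fun γ hγ => by
  rw [map_inv₀, zpow_neg, ← mul_inv, h γ hγ]

theorem MF.add {k : ℤ} {y z : Mer} (h : MF Γ k y) (h' : MF Γ k z) : MF Γ k (y + z) :=
  fun γ hγ => by rw [map_add, add_mul, h γ hγ, h' γ hγ]

theorem MF.pow {k : ℤ} {y : Mer} (h : MF Γ k y) (n : ℕ) : MF Γ (n * k) (y ^ n) := fun γ hγ => by
  rw [map_pow, mul_comm (n : ℤ), zpow_mul, zpow_natCast, ← mul_pow, h γ hγ]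

theorem MF.div_mem {k : ℤ} {y z : Mer} (h : MF Γ k y) (h' : MF Γ k z) : y / z ∈ KF Γ := by
  have := h.mul h'.inv
  rwa [add_neg_cancel, mf_zero, ← div_eq_mul_inv] at this

theorem MF.kf_mul {k : ℤ} {y z : Mer} (h' : MF Γ k z) (h : y ∈ KF Γ) : MF Γ k (y * z) := by
  simpa using (mf_zero.2 h).mul h'

theorem mf_D {y : Mer} (h : y ∈ KF Γ) : MF Γ 1 (DM y) := fun γ hγ => by
  have := DM_ac γ⁻¹ y
  rw [mem_KF.1 h _ (inv_mem hγ), inv_inv] at this
  rw [zpow_one, ← this]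

theorem Fm.ac_eq {k : ℕ} {χ : G → ℂ} {F : Hol} (h : Fm Γ k χ F) {γ : G} (hγ : γ ∈ Γ) :
    ac γ⁻¹ (jm F) * jm (dr γ) ^ k = algebraMap ℂ Mer (χ γ) * jm F := by
  rw [ac_jm, ← jm_const, ← map_pow, ← map_mul, ← map_mul]
  congr 1
  refine Subtype.ext (funext fun τ => ?_)
  have := h γ hγ τ
  rw [← inv_inv γ] at this
  rw [inv_inv] at this
  show F.1 (γ⁻¹⁻¹ • τ) * (dr γ).1 τ ^ k = χ γ * F.1 τ
  rw [inv_inv, this]

theorem mf_jm {k : ℕ} {F : Hol} : MF Γ k (jm F) ↔ Fm Γ k (fun _ => 1) F := by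
  constructor
  · intro h γ hγ τ
    have h1 := h γ hγ
    rw [zpow_natCast, ac_jm, ← map_pow, ← map_mul] at h1
    have h2 : F.1 (γ⁻¹⁻¹ • τ) * (dr γ).1 τ ^ k = F.1 τ := congrFun (congrArg Subtype.val (jm_inj h1)) τ
    rw [inv_inv] at h2
    rw [h2, one_mul]
  · intro h γ hγ
    rw [zpow_natCast, h.ac_eq hγ, map_one, one_mul]

theorem MF.od {k : ℤ} {y : Mer} (h : MF Γ k y) {γ : G} (hγ : γ ∈ Γ) (a : ℍ) :
    od (γ • a) y = od a y := by
  by_cases hy : y = 0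
  · rw [hy, od_zero, od_zero]
  · have h1 := congrArg (Cf.od a) (h γ hγ)
    rw [od_mul a ((map_ne_zero _).2 hy) (zpow_ne_zero _ (jdr_ne γ)), od_zpow, od_dr, mul_zero,
      add_zero] at h1
    rw [← h1, ← od_ac (γ • a) y γ⁻¹, inv_smul_smul]

theorem MF.reg {k : ℤ} {y : Mer} (h : MF Γ k y) {γ : G} (hγ : γ ∈ Γ) (a : ℍ) :
    Reg (γ • a) y ↔ Reg a y := by rw [reg_iff, reg_iff, h.od hγ]

/-! ### Liouville -/

theorem Fu.liou (h : Fu Γ) {y : Mer} (hy : y ∈ KF Γ) (hr : ∀ a, Reg a y) :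
    ∃ c, y = algebraMap ℂ Mer c := by
  obtain ⟨f, rfl, hf⟩ := ex_hol hr
  obtain ⟨r, hc⟩ := h.cpt
  obtain ⟨γ0, -, h0⟩ := hc I
  obtain ⟨a, -, ha⟩ := (isCompact_closedBall I r).exists_isMaxOn ⟨_, h0⟩
    (cont f).norm.continuousOn
  have hm : IsMaxOn (norm ∘ f.1) Set.univ a := fun τ _ => by
    obtain ⟨γ, hγ, h1⟩ := hc τ
    have h2 : ‖f.1 (γ • τ)‖ ≤ ‖f.1 a‖ := ha h1
    rwa [hf, ev_KF hy hγ, ← hf] at h2
  have := MDifferentiableOn.eqOn_of_isPreconnected_of_isMaxOn_norm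
    (mem_Hol.1 f.2).mdifferentiableOn isPreconnected_univ isOpen_univ (Set.mem_univ a) hm
  refine ⟨f.1 a, ?_⟩
  rw [← jm_const]
  congr 1
  exact Subtype.ext (funext fun τ => this (Set.mem_univ τ))

/-! ### spaces of functions with bounded poles -/

/-- the polynomial with the zeros `s` -/
def ps (s : Multiset ℍ) : Mer := (s.map fun a => jm (tz a)).prod

theorem ps_zero : ps 0 = 1 := by simp [ps]

theorem ps_cons (a : ℍ) (s : Multiset ℍ) : ps (a ::ₘ s) = jm (tz a) * ps s := by simp [ps]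

theorem ps_add (s t : Multiset ℍ) : ps (s + t) = ps s * ps t := by simp [ps]

theorem ps_nsmul (n : ℕ) (s : Multiset ℍ) : ps (n • s) = ps s ^ n := by
  simp [ps, Multiset.map_nsmul, Multiset.prod_nsmul]

theorem reg_one (a : ℍ) : Reg a 1 := (pl a).one_mem

theorem Reg.pow {a : ℍ} {y : Mer} (h : Reg a y) (n : ℕ) : Reg a (y ^ n) := (pl a).pow_mem h n

theorem reg_ps (a : ℍ) (s : Multiset ℍ) : Reg a (ps s) := by
  induction s using Multiset.induction_on with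
  | empty => rw [ps_zero]; exact reg_one a
  | cons b s ih => rw [ps_cons]; exact (reg_jm a _).mul ih

theorem Reg.nhds {a : ℍ} {y : Mer} (h : Reg a y) : ∀ᶠ b in 𝓝 a, Reg b y := by
  obtain ⟨g, h, h0, e⟩ := h
  filter_upwards [(cont h).continuousAt.eventually_ne h0] with b hb
  exact ⟨g, h, hb, e⟩

theorem ex_ps {K : Set ℍ} (hK : IsCompact K) (y : Mer) : ∃ s, ∀ a ∈ K, Reg a (ps s * y) := by
  refine hK.induction_on (p := fun K => ∃ s, ∀ a ∈ K, Reg a (ps s * y)) ⟨0, fun _ h => h.elim⟩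
    (fun _ _ h ⟨s, hs⟩ => ⟨s, fun a ha => hs a (h ha)⟩) ?_ fun a _ => ?_
  · rintro A B ⟨s, hs⟩ ⟨t, ht⟩
    refine ⟨s + t, fun a ha => ?_⟩
    rw [ps_add]
    rcases ha with ha | ha
    · rw [mul_comm (ps s), mul_assoc]
      exact (reg_ps a t).mul (hs a ha)
    · rw [mul_assoc]
      exact (reg_ps a s).mul (ht a ha)
  · have : Reg a (ps ((od a y).natAbs • {a}) * y) := by
      by_cases hy : y = 0
      · rw [hy, mul_zero]
        exact (pl a).zero_mem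
      · rw [ps_nsmul, ← Multiset.cons_zero, ps_cons, ps_zero, mul_one, reg_iff,
          od_mul a (pow_ne_zero _ (jt_ne a)) hy, od_pow, od_tz]
        omega
    exact ⟨_, mem_nhdsWithin_of_mem_nhds this.nhds, _, fun b hb => hb⟩

/-- invariant functions whose poles in `K` are bounded by `s` -/
def Ls (Γ : Subgroup G) (K : Set ℍ) (s : Multiset ℍ) : Submodule ℂ (KF Γ) where
  carrier := {y | ∀ a ∈ K, Reg a (ps s * y.1)}
  add_mem' {y z} hy hz a ha := by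
    rw [AddMemClass.coe_add, mul_add]
    exact (hy a ha).add (hz a ha)
  zero_mem' a _ := by
    rw [ZeroMemClass.coe_zero, mul_zero]
    exact (pl a).zero_mem
  smul_mem' c y hy a ha := by
    rw [IntermediateField.coe_smul, Algebra.smul_def, mul_left_comm]
    exact (reg_const a c).mul (hy a ha)

theorem reg_tz_mul {a b : ℍ} (h : b ≠ a) {y : Mer} (hy : Reg b (jm (tz a) * y)) : Reg b y := by
  by_cases h0 : y = 0
  · exact reg_iff.2 (Or.inl h0)
  · rw [reg_iff, od_mul b (jt_ne a) h0, od_unit (tz_ne h), zero_add,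
      or_iff_right (mul_ne_zero (jt_ne a) h0)] at hy
    exact reg_iff.2 (Or.inr hy)

theorem reg_of_ev {a : ℍ} {y : Mer} (hy : Reg a (jm (tz a) * y)) (h : ev a (jm (tz a) * y) = 0) :
    Reg a y := by
  by_cases h0 : y = 0
  · exact reg_iff.2 (Or.inl h0)
  · rw [ev_eq_zero (mul_ne_zero (jt_ne a) h0) hy, od_mul a (jt_ne a) h0, od_tz] at h
    exact reg_iff.2 (Or.inr (by omega))

theorem rank_Ls_cons (K : Set ℍ) (a : ℍ) (s : Multiset ℍ) :
    Module.rank ℂ (Ls Γ K (a ::ₘ s)) ≤ Module.rank ℂ (Ls Γ K s) + 1 := by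
  by_cases ha : a ∈ K
  · let φ : Ls Γ K (a ::ₘ s) →ₗ[ℂ] ℂ :=
      { toFun := fun y => ev a (ps (a ::ₘ s) * y.1.1)
        map_add' := fun y z => by
          rw [Submodule.coe_add, AddMemClass.coe_add, mul_add, ev_add (y.2 a ha) (z.2 a ha)]
        map_smul' := fun c y => by
          rw [Submodule.coe_smul, IntermediateField.coe_smul, Algebra.smul_def, mul_left_comm,
            ev_mul (reg_const a c) (y.2 a ha), ev_const]
          rfl }
    have hk : (LinearMap.ker φ).map (Submodule.subtype _) ≤ Ls Γ K s := by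
      rintro _ ⟨y, hy, rfl⟩ b hb
      have h1 : Reg b (ps (a ::ₘ s) * y.1.1) := y.2 b hb
      have h2 : ev a (ps (a ::ₘ s) * y.1.1) = 0 := hy
      rw [ps_cons, mul_assoc] at h1 h2
      by_cases e : b = a
      · subst e
        exact reg_of_ev h1 h2
      · exact reg_tz_mul e h1
    rw [← φ.rank_range_add_rank_ker, add_comm]
    refine add_le_add ?_ ((Submodule.rank_le _).trans (by simp))
    rw [← rank_map_eq (Submodule.injective_subtype _)]
    exact Submodule.rank_mono hk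
  · refine le_trans (Submodule.rank_mono (t := Ls Γ K s) fun y hy b hb => ?_) le_self_add
    have h1 : Reg b (ps (a ::ₘ s) * y.1) := hy b hb
    rw [ps_cons, mul_assoc] at h1
    exact reg_tz_mul (fun e : b = a => ha (e ▸ hb)) h1

theorem Fu.rank_Ls (h : Fu Γ) {K : Set ℍ} (hK : ∀ τ, ∃ γ ∈ Γ, γ • τ ∈ K) (s : Multiset ℍ) :
    Module.rank ℂ (Ls Γ K s) ≤ (s.card + 1 : ℕ) := by
  induction s using Multiset.induction_on with
  | empty =>
    refine le_trans (Submodule.rank_mono (t := Submodule.span ℂ {1}) fun y hy => ?_)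
      ((rank_span_le _).trans (by simp))
    obtain ⟨c, hc⟩ := h.liou y.2 fun a => by
      obtain ⟨γ, hγ, h1⟩ := hK a
      have h2 : Reg (γ • a) (ps 0 * y.1) := hy _ h1
      rwa [ps_zero, one_mul, (mf_zero.2 y.2).reg hγ] at h2
    refine Submodule.mem_span_singleton.2 ⟨c, Subtype.ext ?_⟩
    rw [hc, ← Algebra.algebraMap_eq_smul_one]
    rfl
  | cons a s ih =>
    refine (rank_Ls_cons K a s).trans ((add_le_add_left ih 1).trans (le_of_eq ?_))
    rw [Multiset.card_cons]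
    norm_cast

theorem Fu.ex_K (h : Fu Γ) : ∃ K : Set ℍ, IsCompact K ∧ ∀ τ, ∃ γ ∈ Γ, γ • τ ∈ K := by
  obtain ⟨r, hr⟩ := h.cpt
  exact ⟨_, isCompact_closedBall I r, hr⟩

theorem fd_of {F : Type} [Field F] [Algebra ℂ F] {x : F} (hx : Transcendental ℂ x) (N : ℕ)
    (H : ∀ S : Finset F, ∃ (n : ℕ) (W : Submodule ℂ F), (∀ y ∈ S, ∀ i ≤ n, x ^ i * y ∈ W) ∧
      Module.rank ℂ W ≤ (n * N + n : ℕ)) : FiniteDimensional ℂ⟮x⟯ F := by
  refine Module.rank_lt_aleph0_iff.1 (lt_of_le_of_lt (rank_le (n := N) fun S hS => ?_)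
    Cardinal.natCast_lt_aleph0)
  obtain ⟨n, W, h2, h4⟩ := H S
  have h1 := (indep_pow_mul hx hS).comp (fun p : S × Fin (n + 1) => (p.1, (p.2 : ℕ)))
    (fun p q e => Prod.ext (Prod.ext_iff.1 e).1 (Fin.ext (Prod.ext_iff.1 e).2))
  have h3 := (LinearIndependent.of_comp (v := fun p : S × Fin (n + 1) => (⟨x ^ (p.2 : ℕ) * p.1.1,
    h2 _ p.1.2 _ (Nat.lt_succ_iff.1 p.2.2)⟩ : W)) W.subtype h1).cardinal_le_rank.trans h4
  rw [Cardinal.mk_fintype, Fintype.card_prod, Fintype.card_coe, Fintype.card_fin, Nat.cast_le] at h3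
  by_contra hlt
  have h4 : (N + 1) * (n + 1) ≤ S.card * (n + 1) := Nat.mul_le_mul_right _ (by omega)
  nlinarith

/-- the degree over `ℂ (x)` is finite -/
theorem Fu.fd (h : Fu Γ) {x : KF Γ} (hx : Transcendental ℂ x) : FiniteDimensional ℂ⟮x⟯ (KF Γ) := by
  classical
  obtain ⟨K, hK, hc⟩ := h.ex_K
  obtain ⟨s, hs⟩ := ex_ps hK x.1
  refine fd_of hx s.card fun S => ?_
  choose t ht using fun y : KF Γ => ex_ps hK y.1
  obtain ⟨n, hn⟩ : ∃ n, n = (∑ y ∈ S, t y).card + 1 := ⟨_, rfl⟩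
  refine ⟨n, Ls Γ K (n • s + ∑ y ∈ S, t y), fun y hy i hi a ha => ?_, ?_⟩
  · obtain ⟨j, hj⟩ := Nat.exists_eq_add_of_le hi
    rw [← Finset.add_sum_erase S t hy, ps_add, ps_add, ps_nsmul]
    have e : ps s ^ n * (ps (t y) * ps (∑ z ∈ S.erase y, t z)) * ((x ^ i * y : KF Γ) : Mer) =
        (ps s * x.1) ^ i * (ps (t y) * y.1) * (ps s ^ j * ps (∑ z ∈ S.erase y, t z)) := by
      rw [hj]
      push_cast
      ring
    rw [e]
    exact (((hs a ha).pow _).mul (ht y a ha)).mul (((reg_ps a s).pow j).mul (reg_ps a _))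
  · have h3 := h.rank_Ls hc (n • s + ∑ y ∈ S, t y)
    rwa [Multiset.card_add, Multiset.card_nsmul, add_assoc, ← hn] at h3

/-! ### separation -/

/-- a function with a zero at `a` and a pole at `b` -/
theorem Fu.sep (h : Fu Γ) {a b : ℍ} (hab : ∀ γ ∈ Γ, γ • a ≠ b) :
    ∃ x ∈ KF Γ, 0 < od a x ∧ od b x < 0 := by
  obtain ⟨k, F, k0, hF, Fa, Fb⟩ := ex_sep h hab
  obtain ⟨l, H, l0, hH, Hb, Ha⟩ := ex_sep h (a := b) (b := a) fun γ hγ e =>
    hab γ⁻¹ (inv_mem hγ) (by rw [← e, inv_smul_smul])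
  have h1 := (mf_jm.2 hF).pow l
  have h2 := (mf_jm.2 hH).pow k
  rw [mul_comm] at h2
  have h3 := (od_jm_pos (ne_of_val Fb)).2 Fa
  have h4 := (od_jm_pos (ne_of_val Ha)).2 Hb
  refine ⟨_, h1.div_mem h2, ?_, ?_⟩
  · rw [od_div a (pow_ne_zero _ (jm_ne' Fb)) (pow_ne_zero _ (jm_ne' Ha)), od_pow, od_pow,
      od_unit Ha, mul_zero, sub_zero]
    positivity
  · rw [od_div b (pow_ne_zero _ (jm_ne' Fb)) (pow_ne_zero _ (jm_ne' Ha)), od_pow, od_pow,
      od_unit Fb, mul_zero, zero_sub, neg_lt_zero]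
    positivity

theorem Fu.ex_ineq (h : Fu Γ) (a : ℍ) : ∃ b, ∀ γ ∈ Γ, γ • a ≠ b := by
  have h1 : (Metric.closedBall a 1).Infinite :=
    infinite_of_mem_nhds a (Metric.closedBall_mem_nhds a one_pos)
  obtain ⟨b, hb, h2⟩ := (h1.sdiff ((h.disc' a a 1).image fun γ => γ • a)).nonempty
  exact ⟨b, fun γ hγ e => h2 ⟨γ, ⟨hγ, e ▸ hb⟩, e⟩⟩

theorem Fu.ex_zero (h : Fu Γ) (a : ℍ) : ∃ x ∈ KF Γ, 0 < od a x := by
  obtain ⟨b, hb⟩ := h.ex_ineq a
  obtain ⟨x, h1, h2, -⟩ := h.sep hb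
  exact ⟨x, h1, h2⟩

/-- the invariant functions form a function field of one variable -/
theorem Fu.cff (h : Fu Γ) : CFF ℂ (KF Γ) := by
  obtain ⟨x, h1, h2⟩ := h.ex_zero I
  have ht : Transcendental ℂ (⟨x, h1⟩ : KF Γ) := fun ha => by
    obtain ⟨c, hc⟩ := minpoly.mem_range_of_degree_eq_one ℂ _
      (IsAlgClosed.degree_eq_one_of_irreducible ℂ (minpoly.irreducible ha.isIntegral))
    have : x = algebraMap ℂ Mer c := (congrArg Subtype.val hc).symm
    rw [this, od_const] at h2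
    exact lt_irrefl _ h2
  exact ⟨inferInstance, _, ht, h.fd ht⟩

end Vale.Agent.P022K.F0.Cf
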