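import Vale.Agent.P022K.F0.Cf.Der

/-!
# P022K, block F0, row CF: Poincare series of a discrete group (helper63)
-/

set_option autoImplicit false
set_option linter.unusedSectionVars false

open UpperHalfPlane Filter Topology MeasureTheory
open scoped Manifold MatrixGroups ComplexConjugate

noncomputable section

namespace Vale.Agent.P022K.F0.Cf

open Vale.Agent.P022.H218.L3

variable {G : Type*} [Group G] [MulAction G ℍ] [Mo G] {Γ : Subgroup G}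

/-- the size function `4 Im a Im τ / |τ - conj a|²` -/
def uu (τ a : ℍ) : ℝ := (Real.cosh (dist τ a / 2) ^ 2)⁻¹

theorem uu_pos (τ a : ℍ) : 0 < uu τ a := by
  unfold uu
  have := Real.cosh_pos (dist τ a / 2)
  positivity

theorem uu_le_one (τ a : ℍ) : uu τ a ≤ 1 :=
  inv_le_one_of_one_le₀ (one_le_pow₀ (Real.one_le_cosh _))

theorem uu_lt_one {τ a : ℍ} (h : τ ≠ a) : uu τ a < 1 :=
  inv_lt_one_of_one_lt₀ (one_lt_pow₀ (Real.one_lt_cosh.2 (by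
    have := dist_pos.2 h
    positivity)) two_ne_zero)

theorem den_ne (τ a : ℍ) : (τ : ℂ) - conj (a : ℂ) ≠ 0 := fun h => by
  have := congrArg Complex.im h
  have h1 := τ.im_pos
  have h2 := a.im_pos
  simp at this
  linarith

theorem uu_eq (τ a : ℍ) : uu τ a = 4 * a.im * τ.im / ‖(τ : ℂ) - conj (a : ℂ)‖ ^ 2 := by
  have h1 := τ.im_pos
  have h2 := a.im_pos
  unfold uu
  rw [cosh_half_dist, div_pow, mul_pow, Real.sq_sqrt (by positivity), inv_div, Complex.dist_eq]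
  ring

theorem uu_le (τ a : ℍ) : uu τ a ≤ 4 * Real.exp (-dist τ a) := by
  unfold uu
  have h1 : Real.exp (dist τ a / 2) / 2 ≤ Real.cosh (dist τ a / 2) := by
    rw [Real.cosh_eq]
    have := Real.exp_pos (-(dist τ a / 2))
    linarith
  have h2 := Real.exp_pos (dist τ a / 2)
  calc _ ≤ ((Real.exp (dist τ a / 2) / 2) ^ 2)⁻¹ := by gcongr
    _ = _ := by
      rw [div_pow, ← Real.exp_nat_mul, Real.exp_neg]
      field_simp
      norm_num
      ring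

theorem le_uu (τ a : ℍ) : Real.exp (-dist τ a) ≤ uu τ a := by
  unfold uu
  have h1 : Real.cosh (dist τ a / 2) ≤ Real.exp (dist τ a / 2) := by
    rw [Real.cosh_eq]
    have : Real.exp (-(dist τ a / 2)) ≤ Real.exp (dist τ a / 2) :=
      Real.exp_le_exp.2 (by have := dist_nonneg (x := τ) (y := a); linarith)
    linarith
  have h2 := Real.cosh_pos (dist τ a / 2)
  calc _ = (Real.exp (dist τ a / 2) ^ 2)⁻¹ := by
        rw [← Real.exp_nat_mul, Real.exp_neg]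
        congr 2
        push_cast
        ring
    _ ≤ _ := by gcongr

/-- the area bound for one ball -/
theorem ball_bd (p : ℍ) : uu p I ^ 2 / (16 * 6 ^ 4) ≤
    ∫ z in UpperHalfPlane.coe '' Metric.ball p 1, (1 + ‖z‖) ^ (-(4 : ℝ)) := by
  have hi : Integrable (fun z : ℂ => (1 + ‖z‖) ^ (-(4 : ℝ))) :=
    integrable_one_add_norm (by simp; norm_num)
  have hp := p.im_pos
  obtain ⟨N, hN⟩ : ∃ N, N = ‖(p : ℂ) - conj ((I : ℍ) : ℂ)‖ := ⟨_, rfl⟩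
  have hN2 : N ^ 2 = ‖(p : ℂ)‖ ^ 2 + 2 * p.im + 1 := by
    rw [hN, Complex.sq_norm, Complex.sq_norm, Complex.normSq_apply, Complex.normSq_apply]
    simp
    ring
  have hN0 : 0 < N := hN ▸ norm_pos_iff.2 (den_ne p I)
  have hn := norm_nonneg (p : ℂ)
  have h1 : 1 + ‖(p : ℂ)‖ ≤ 2 * N :=
    (abs_le_of_sq_le_sq' (by nlinarith [sq_nonneg (‖(p : ℂ)‖ - 1)]) (by positivity)).2
  have h2 : p.im ≤ ‖(p : ℂ)‖ := (le_abs_self _).trans (Complex.abs_im_le_norm _)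
  have hb : ∀ z ∈ UpperHalfPlane.coe '' Metric.ball p 1,
      ((6 * N) ^ 4)⁻¹ ≤ (1 + ‖z‖) ^ (-(4 : ℝ)) := by
    rintro _ ⟨σ, hσ, rfl⟩
    have h3 := dist_coe_le σ p
    have h4 : Real.exp (dist σ p) ≤ 3 :=
      (Real.exp_le_exp.2 (Metric.mem_ball.1 hσ).le).trans (Real.exp_one_lt_d9.le.trans (by norm_num))
    have h5 : ‖(σ : ℂ)‖ ≤ ‖(p : ℂ)‖ + dist (σ : ℂ) p := by
      rw [Complex.dist_eq]
      exact norm_le_norm_add_norm_sub' _ _
    have h6 : 1 + ‖(σ : ℂ)‖ ≤ 6 * N := by nlinarith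
    rw [Real.rpow_neg (by positivity), show (4 : ℝ) = (4 : ℕ) by norm_num, Real.rpow_natCast]
    gcongr
  have hm : MeasurableSet (UpperHalfPlane.coe '' Metric.ball p 1) :=
    (isOpenEmbedding_coe.isOpenMap _ Metric.isOpen_ball).measurableSet
  have hv : volume (UpperHalfPlane.coe '' Metric.ball p 1) =
      ENNReal.ofReal (p.im * Real.sinh 1) ^ 2 * NNReal.pi := by
    rw [image_coe_ball, Complex.volume_ball]
  have hs : 1 ≤ Real.sinh 1 := Real.self_le_sinh_iff.2 zero_le_one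
  have hv' : p.im ^ 2 ≤ volume.real (UpperHalfPlane.coe '' Metric.ball p 1) := by
    rw [Measure.real, hv, ENNReal.toReal_mul, ENNReal.toReal_pow,
      ENNReal.toReal_ofReal (by positivity), ENNReal.coe_toReal, NNReal.coe_real_pi]
    have := Real.pi_gt_three
    have h7 : p.im ^ 2 ≤ (p.im * Real.sinh 1) ^ 2 := by
      gcongr
      nlinarith
    nlinarith [sq_nonneg (p.im * Real.sinh 1)]
  refine le_trans ?_ (setIntegral_ge_of_const_le_real hm (by rw [hv]; finiteness) hb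
    hi.integrableOn)
  rw [uu_eq, ← hN, I_im]
  calc _ = ((6 * N) ^ 4)⁻¹ * p.im ^ 2 := by field_simp; norm_num
    _ ≤ _ := by gcongr

/-- the basic convergence -/
theorem Fu.sum_I (h : Fu Γ) : Summable fun γ : Γ => uu (γ.1 • I) I ^ 2 := by
  classical
  have hi : Integrable (fun z : ℂ => (1 + ‖z‖) ^ (-(4 : ℝ))) :=
    integrable_one_add_norm (by simp; norm_num)
  obtain ⟨m, hm⟩ : ∃ m, m = (h.disc 2).toFinset.card := ⟨_, rfl⟩
  refine summable_of_sum_le (fun _ => sq_nonneg _)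
    (c := 16 * 6 ^ 4 * ∫ z : ℂ, m * (1 + ‖z‖) ^ (-(4 : ℝ))) fun T => ?_
  have hms : ∀ p : ℍ, MeasurableSet (UpperHalfPlane.coe '' Metric.ball p 1) := fun p =>
    (isOpenEmbedding_coe.isOpenMap _ Metric.isOpen_ball).measurableSet
  rw [← div_le_iff₀' (by norm_num), Finset.sum_div]
  refine (Finset.sum_le_sum fun γ _ => ball_bd (γ.1 • I)).trans ?_
  simp only [← integral_indicator (hms _)]
  rw [← integral_finsetSum _ fun γ _ => hi.indicator (hms _)]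
  refine integral_mono (integrable_finsetSum _ fun γ _ => hi.indicator (hms _))
    (hi.const_mul _) fun z => ?_
  simp only [Set.indicator_apply]
  rw [← Finset.sum_filter, Finset.sum_const, nsmul_eq_mul]
  refine mul_le_mul_of_nonneg_right ?_ (by positivity)
  rw [Nat.cast_le, hm]
  rcases (T.filter fun γ => z ∈ UpperHalfPlane.coe '' Metric.ball (γ.1 • I) 1).eq_empty_or_nonempty
    with h0 | ⟨γ0, h0⟩
  · rw [h0]
    exact Nat.zero_le _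
  · refine Finset.card_le_card_of_injOn (fun γ => γ0.1⁻¹ * γ.1) (fun γ hγ => ?_) fun a _ b _ e =>
      Subtype.ext (mul_left_cancel e)
    obtain ⟨σ, h1, e1⟩ := (Finset.mem_filter.1 h0).2
    obtain ⟨σ', h2, e2⟩ := (Finset.mem_filter.1 hγ).2
    obtain rfl : σ = σ' := UpperHalfPlane.ext (e1.trans e2.symm)
    refine (h.disc 2).mem_toFinset.2 ⟨Γ.mul_mem (Γ.inv_mem γ0.2) γ.2, ?_⟩
    rw [← dist_sm γ0.1, smul_smul, mul_inv_cancel_left]
    have := dist_triangle_left (γ.1 • I) (γ0.1 • I) σ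
    have h3 := Metric.mem_ball.1 h1
    have h4 := Metric.mem_ball.1 h2
    linarith

theorem uu_cmp (g : G) {τ a : ℍ} {r : ℝ} (h : dist τ I + dist a I ≤ r) :
    uu (g • τ) a ≤ 4 * Real.exp r * uu (g • I) I := by
  have h1 : dist (g • I) I ≤ dist (g • τ) a + r := by
    have h2 := dist_triangle4 (g • I) (g • τ) a I
    rw [dist_sm, dist_comm I τ] at h2
    linarith
  calc _ ≤ 4 * Real.exp (-dist (g • τ) a) := uu_le _ _
    _ ≤ 4 * (Real.exp r * Real.exp (-dist (g • I) I)) := by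
      rw [← Real.exp_add]
      gcongr
      linarith
    _ ≤ _ := by
      rw [mul_assoc]
      gcongr
      exact le_uu _ _

theorem Fu.sum_uu (h : Fu Γ) (τ a : ℍ) : Summable fun γ : Γ => uu (γ.1 • τ) a ^ 2 := by
  refine Summable.of_nonneg_of_le (fun _ => sq_nonneg _) (fun γ => ?_)
    (h.sum_I.mul_left ((4 * Real.exp (dist τ I + dist a I)) ^ 2))
  rw [← mul_pow]
  have := (uu_pos (γ.1 • τ) a).le
  gcongr
  exact uu_cmp _ le_rfl

/-- locally dominated series of holomorphic functions -/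
theorem hol_tsum {ι : Type*} (F : ι → Hol)
    (h : ∀ a : ℍ, ∃ u : ι → ℝ, Summable u ∧ ∀ i, ∀ τ ∈ Metric.ball a 1, ‖(F i).1 τ‖ ≤ u i) :
    (fun τ => ∑' i, (F i).1 τ) ∈ Hol := hol_of_loc fun a => by
  obtain ⟨u, hu, hb⟩ := h a
  have ho : IsOpen (UpperHalfPlane.coe '' Metric.ball a 1) :=
    isOpenEmbedding_coe.isOpenMap _ Metric.isOpen_ball
  refine ⟨fun z => ∑' i, ((F i).1 ∘ ofComplex) z,
    (Complex.differentiableOn_tsum_of_summable_norm hu (fun i => ?_) ho ?_).differentiableAt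
      (ho.mem_nhds ⟨a, Metric.mem_ball_self one_pos, rfl⟩), Eventually.of_forall fun σ => by simp⟩
  · rintro _ ⟨σ, -, rfl⟩
    exact (an (F i) σ).differentiableAt.differentiableWithinAt
  · rintro i _ ⟨σ, hσ, rfl⟩
    simpa using hb i σ hσ

/-- the kernel `- (τ - conj a)⁻²` -/
def kr (a : ℍ) : Hol := ⟨fun τ => (-((τ : ℂ) - conj (a : ℂ)) ^ 2)⁻¹, hol_of_loc fun τ =>
  ⟨fun z => (-(z - conj (a : ℂ)) ^ 2)⁻¹, DifferentiableAt.inv (by fun_prop)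
    (neg_ne_zero.2 (pow_ne_zero _ (den_ne τ a))), Eventually.of_forall fun _ => rfl⟩⟩

/-- the translate of the kernel -/
def tk (a : ℍ) (g : G) : Hol := acH g⁻¹ (kr a) * dr g

theorem tk_val (a : ℍ) (g : G) (τ : ℍ) : (tk a g).1 τ = (kr a).1 (g • τ) * (dr g).1 τ := by
  show (kr a).1 (g⁻¹⁻¹ • τ) * _ = _
  rw [inv_inv]

theorem tk_mul (a : ℍ) (g δ : G) (τ : ℍ) :
    (tk a (g * δ)).1 τ = (tk a g).1 (δ • τ) * (dr δ).1 τ := by
  rw [tk_val, tk_val, dr_mul, mul_smul, mul_assoc]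

theorem norm_tk (a : ℍ) (g : G) (τ : ℍ) :
    ‖((4 * a.im * τ.im : ℝ) : ℂ) * (tk a g).1 τ‖ = uu (g • τ) a := by
  have h1 := τ.im_pos
  have h2 := a.im_pos
  rw [tk_val, norm_mul, norm_mul, norm_dr, uu_eq, Complex.norm_real, Real.norm_eq_abs,
    abs_of_pos (by positivity)]
  show _ * (‖(-(((g • τ : ℍ) : ℂ) - conj (a : ℂ)) ^ 2)⁻¹‖ * _) = _
  rw [norm_inv, norm_neg, norm_pow]
  field_simp

theorem tk_fix {a : ℍ} {g : G} (h : g • a = a) :
    ((4 * a.im * a.im : ℝ) : ℂ) * (tk a g).1 a = (dr g).1 a := by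
  rw [tk_val, h]
  show _ * ((-((a : ℂ) - conj (a : ℂ)) ^ 2)⁻¹ * _) = _
  have h2 : ((a.im : ℝ) : ℂ) ≠ 0 := by exact_mod_cast a.im_pos.ne'
  rw [Complex.sub_conj, mul_pow, Complex.I_sq, coe_im]
  push_cast
  field_simp
  norm_num

/-- automorphic forms of weight `2 k` with a character -/
def Fm (Γ : Subgroup G) (k : ℕ) (χ : G → ℂ) (F : Hol) : Prop :=
  ∀ γ ∈ Γ, ∀ τ : ℍ, F.1 (γ • τ) * (dr γ).1 τ ^ k = χ γ * F.1 τ

/-- unitary characters of `Γ` -/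
structure Ch (Γ : Subgroup G) (χ : G → ℂ) : Prop where
  mul : ∀ γ ∈ Γ, ∀ δ ∈ Γ, χ (γ * δ) = χ γ * χ δ
  nrm : ∀ γ ∈ Γ, ‖χ γ‖ = 1

theorem ch_one (Γ : Subgroup G) : Ch Γ fun _ => 1 := ⟨fun _ _ _ _ => (mul_one _).symm,
  fun _ _ => norm_one⟩

theorem Ch.ne {χ : G → ℂ} (h : Ch Γ χ) {γ : G} (hγ : γ ∈ Γ) : χ γ ≠ 0 := by
  rw [← norm_pos_iff, h.nrm γ hγ]
  exact one_pos

/-- the terms of the series -/
def tm (χ : G → ℂ) (a : ℍ) (k : ℕ) (g : G) : Hol := algebraMap ℂ Hol (χ g)⁻¹ * tk a g ^ k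

theorem tm_val (χ : G → ℂ) (a : ℍ) (k : ℕ) (g : G) (τ : ℍ) :
    (tm χ a k g).1 τ = (χ g)⁻¹ * (tk a g).1 τ ^ k := rfl

theorem norm_tm {χ : G → ℂ} (hχ : Ch Γ χ) (a : ℍ) (k : ℕ) {g : G} (hg : g ∈ Γ) (τ : ℍ) :
    ‖((4 * a.im * τ.im : ℝ) : ℂ) ^ k * (tm χ a k g).1 τ‖ = uu (g • τ) a ^ k := by
  rw [tm_val, mul_left_comm, ← mul_pow, norm_mul, norm_pow, norm_tk, norm_inv, hχ.nrm g hg, inv_one,
    one_mul]

theorem tm_mem (h : Fu Γ) {χ : G → ℂ} (hχ : Ch Γ χ) (a : ℍ) {k : ℕ} (hk : 2 ≤ k) :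
    (fun τ => ∑' γ : Γ, (tm χ a k γ.1).1 τ) ∈ Hol := by
  refine hol_tsum _ fun b => ⟨_, h.sum_I.mul_left (((4 * a.im * (b.im / 3)) ^ k)⁻¹ *
    (4 * Real.exp (dist b I + 1 + dist a I)) ^ 2), fun γ τ hτ => ?_⟩
  have h1 := norm_tm hχ a k γ.2 τ
  have ha := a.im_pos
  have hb := b.im_pos
  have ht := τ.im_pos
  have hd := Metric.mem_ball.1 hτ
  rw [norm_mul, norm_pow, Complex.norm_real, Real.norm_eq_abs, abs_of_pos (by positivity)] at h1
  have h2 : b.im / 3 ≤ τ.im := by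
    have h3 := im_le_im_mul_exp_dist b τ
    have h4 : Real.exp (dist b τ) ≤ 3 := (Real.exp_le_exp.2 (by rw [dist_comm]; exact hd.le)).trans
      (Real.exp_one_lt_d9.le.trans (by norm_num))
    nlinarith
  have h5 : uu (γ.1 • τ) a ≤ 4 * Real.exp (dist b I + 1 + dist a I) * uu (γ.1 • I) I :=
    uu_cmp _ (by have := dist_triangle τ b I; linarith)
  have h6 := (uu_pos (γ.1 • τ) a).le
  calc _ = ((4 * a.im * τ.im) ^ k)⁻¹ * uu (γ.1 • τ) a ^ k := by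
        rw [← h1]
        field_simp
    _ ≤ ((4 * a.im * (b.im / 3)) ^ k)⁻¹ * uu (γ.1 • τ) a ^ 2 := by
        gcongr ?_ * ?_
        · gcongr
        · exact pow_le_pow_of_le_one h6 (uu_le_one _ _) hk
    _ ≤ _ := by
        rw [mul_assoc (_⁻¹), ← mul_pow]
        gcongr

open Classical in
/-- the Poincare series -/
def PS (Γ : Subgroup G) (χ : G → ℂ) (a : ℍ) (k : ℕ) : Hol :=
  if h : (fun τ => ∑' γ : Γ, (tm χ a k γ.1).1 τ) ∈ Hol then ⟨_, h⟩ else 0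

theorem PS_val (h : Fu Γ) {χ : G → ℂ} (hχ : Ch Γ χ) (a : ℍ) {k : ℕ} (hk : 2 ≤ k) (τ : ℍ) :
    (PS Γ χ a k).1 τ = ∑' γ : Γ, (tm χ a k γ.1).1 τ := by
  unfold PS
  rw [dif_pos (tm_mem h hχ a hk)]

theorem PS_fm (h : Fu Γ) {χ : G → ℂ} (hχ : Ch Γ χ) (a : ℍ) {k : ℕ} (hk : 2 ≤ k) :
    Fm Γ k χ (PS Γ χ a k) := fun δ hδ τ => by
  rw [PS_val h hχ a hk, PS_val h hχ a hk, ← tsum_mul_right, ← tsum_mul_left,
    ← (Equiv.mulRight (⟨δ, hδ⟩ : Γ)).tsum_eq fun γ : Γ => χ δ * (tm χ a k γ.1).1 τ]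
  refine tsum_congr fun γ => ?_
  show _ = χ δ * (tm χ a k (γ.1 * δ)).1 τ
  rw [tm_val, tm_val, tk_mul, hχ.mul _ γ.2 _ hδ, mul_pow]
  have := hχ.ne hδ
  have := hχ.ne γ.2
  field_simp

/-- the normalised values of the series converge to the number of `γ` with `γ τ = a` -/
theorem PS_lim (h : Fu Γ) {χ : G → ℂ} (hχ : Ch Γ χ) (a τ : ℍ) {N : ℕ} (hN : 0 < N) {c : G → ℂ}
    (h1 : ∀ γ ∈ Γ, γ • τ = a → ∀ n, ((4 * a.im * τ.im : ℝ) : ℂ) ^ (N * n) *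
      (tm χ a (N * n) γ).1 τ = c γ) (h0 : ∀ γ ∈ Γ, γ • τ ≠ a → c γ = 0) :
    Tendsto (fun n => ((4 * a.im * τ.im : ℝ) : ℂ) ^ (N * n) * (PS Γ χ a (N * n)).1 τ) atTop
      (𝓝 (∑' γ : Γ, c γ.1)) := by
  have h2 : ∀ᶠ n in atTop, 2 ≤ N * n :=
    (eventually_ge_atTop 2).mono fun n hn => hn.trans (Nat.le_mul_of_pos_left n hN)
  refine (tendsto_tsum_of_dominated_convergence (f := fun n (γ : Γ) =>
    ((4 * a.im * τ.im : ℝ) : ℂ) ^ (N * n) * (tm χ a (N * n) γ.1).1 τ) (h.sum_uu τ a)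
    (fun γ => ?_) ?_).congr' ?_
  · by_cases e : γ.1 • τ = a
    · simp only [h1 _ γ.2 e]
      exact tendsto_const_nhds
    · rw [h0 _ γ.2 e, tendsto_zero_iff_norm_tendsto_zero]
      simp only [norm_tm hχ a _ γ.2]
      simp only [pow_mul]
      exact tendsto_pow_atTop_nhds_zero_of_lt_one (pow_pos (uu_pos _ _) _).le
        (pow_lt_one₀ (uu_pos _ _).le (uu_lt_one e) hN.ne')
  · filter_upwards [h2] with n hn γ
    rw [norm_tm hχ a _ γ.2]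
    exact pow_le_pow_of_le_one (uu_pos _ _).le (uu_le_one _ _) hn
  · filter_upwards [h2] with n hn
    rw [PS_val h hχ a hn, tsum_mul_left]

theorem PS_far (h : Fu Γ) {χ : G → ℂ} (hχ : Ch Γ χ) {a τ : ℍ} {N : ℕ} (hN : 0 < N)
    (h1 : ∀ γ ∈ Γ, γ • τ ≠ a) :
    Tendsto (fun n => ((4 * a.im * τ.im : ℝ) : ℂ) ^ (N * n) * (PS Γ χ a (N * n)).1 τ) atTop
      (𝓝 0) := by
  simpa using PS_lim h hχ a τ hN (c := fun _ => 0) (fun γ hγ e => absurd e (h1 γ hγ))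
    fun _ _ _ => rfl

theorem Fu.disc' (h : Fu Γ) (τ a : ℍ) (r : ℝ) : {γ : G | γ ∈ Γ ∧ dist (γ • τ) a ≤ r}.Finite := by
  refine (h.disc (r + dist τ I + dist a I)).subset fun γ hγ => ⟨hγ.1, ?_⟩
  have h2 := dist_triangle4 (γ • I) (γ • τ) a I
  rw [dist_sm, dist_comm I τ] at h2
  linarith [hγ.2]

theorem Fu.stab (h : Fu Γ) (a : ℍ) : {γ : G | γ ∈ Γ ∧ γ • a = a}.Finite :=
  (h.disc' a a 0).subset fun γ hγ => ⟨hγ.1, by rw [hγ.2, dist_self]⟩

theorem PS_near (h : Fu Γ) {χ : G → ℂ} (hχ : Ch Γ χ) {a : ℍ} {N : ℕ} (hN : 0 < N)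
    (h1 : ∀ γ ∈ Γ, γ • a = a → χ γ = 1 ∧ (dr γ).1 a ^ N = 1) : ∃ c : ℂ, c ≠ 0 ∧
    Tendsto (fun n => ((4 * a.im * a.im : ℝ) : ℂ) ^ (N * n) * (PS Γ χ a (N * n)).1 a) atTop
      (𝓝 c) := by
  classical
  refine ⟨_, ?_, PS_lim h hχ a a hN (c := fun γ => if γ • a = a then 1 else 0)
    (fun γ hγ e n => ?_) fun _ _ e => if_neg e⟩
  · have hf : {γ : Γ | γ.1 • a = a}.Finite :=
      Set.Finite.of_finite_image ((h.stab a).subset (by
        rintro _ ⟨γ, hγ, rfl⟩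
        exact ⟨γ.2, hγ⟩)) Subtype.val_injective.injOn
    have e1 : ∑' γ : Γ, (if γ.1 • a = a then 1 else 0 : ℂ) = ∑ γ ∈ hf.toFinset, 1 :=
      (tsum_eq_sum (s := hf.toFinset) fun γ hγ => if_neg fun e => hγ (hf.mem_toFinset.2 e)).trans
        (Finset.sum_congr rfl fun γ hγ => if_pos (hf.mem_toFinset.1 hγ))
    rw [e1, Finset.sum_const, nsmul_eq_mul, mul_one, Nat.cast_ne_zero]
    exact Finset.card_ne_zero.2 ⟨1, hf.mem_toFinset.2 (one_smul G a)⟩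
  · rw [if_pos e, tm_val, mul_left_comm, ← mul_pow, tk_fix e, (h1 γ hγ e).1, pow_mul,
      (h1 γ hγ e).2, one_pow, inv_one, one_mul]

/-- the order of the stabiliser kills the multipliers -/
theorem Fu.ex_ord (h : Fu Γ) (a : ℍ) :
    ∃ N : ℕ, 0 < N ∧ ∀ γ ∈ Γ, γ • a = a → (dr γ).1 a ^ N = 1 := by
  have : Finite (Γ ⊓ MulAction.stabilizer G a : Subgroup G) := (h.stab a).to_subtype
  refine ⟨Nat.card (Γ ⊓ MulAction.stabilizer G a : Subgroup G), Nat.card_pos, fun γ hγ e => ?_⟩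
  have h1 := congrArg Subtype.val
    (pow_card_eq_one' (x := (⟨γ, hγ, e⟩ : (Γ ⊓ MulAction.stabilizer G a : Subgroup G))))
  rw [← dr_pow e, show γ ^ _ = 1 from h1, dr_one]

/-- **forms which do not vanish at a given point**, in all large weights divisible by `N` -/
theorem ex_fm (h : Fu Γ) {χ : G → ℂ} (hχ : Ch Γ χ) {a : ℍ} {N : ℕ} (hN : 0 < N)
    (h1 : ∀ γ ∈ Γ, γ • a = a → χ γ = 1 ∧ (dr γ).1 a ^ N = 1) :
    ∀ᶠ n in atTop, ∃ F : Hol, Fm Γ (N * n) χ F ∧ F.1 a ≠ 0 := by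
  obtain ⟨c, c0, hc⟩ := PS_near h hχ hN h1
  filter_upwards [hc.eventually_ne c0, eventually_ge_atTop 2] with n hn h2
  exact ⟨_, PS_fm h hχ a (h2.trans (Nat.le_mul_of_pos_left n hN)), right_ne_zero_of_mul hn⟩

/-- **forms separate the orbits** -/
theorem ex_sep (h : Fu Γ) {a b : ℍ} (hab : ∀ γ ∈ Γ, γ • a ≠ b) :
    ∃ (k : ℕ) (F : Hol), 0 < k ∧ Fm Γ k (fun _ => 1) F ∧ F.1 a = 0 ∧ F.1 b ≠ 0 := by
  obtain ⟨N, N0, hN⟩ := h.ex_ord a
  obtain ⟨M, M0, hM⟩ := h.ex_ord b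
  have h0 := Nat.mul_pos N0 M0
  obtain ⟨c, c0, hc⟩ := PS_near h (ch_one Γ) (a := a) h0 fun γ hγ e =>
    ⟨rfl, by rw [pow_mul, hN γ hγ e, one_pow]⟩
  obtain ⟨d, d0, hd⟩ := PS_near h (ch_one Γ) (a := b) h0 fun γ hγ e =>
    ⟨rfl, by rw [mul_comm, pow_mul, hM γ hγ e, one_pow]⟩
  have h1 := PS_far h (ch_one Γ) h0 hab
  have h2 := PS_far h (ch_one Γ) (a := a) (τ := b) h0 fun γ hγ e =>
    hab γ⁻¹ (Γ.inv_mem hγ) (by rw [← e, inv_smul_smul])
  have h3 := (hc.mul hd).sub (h1.mul h2)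
  rw [mul_zero, sub_zero] at h3
  obtain ⟨n, hn, n2⟩ := ((h3.eventually_ne (mul_ne_zero c0 d0)).and (eventually_ge_atTop 2)).exists
  have k2 : 2 ≤ N * M * n := n2.trans (Nat.le_mul_of_pos_left n h0)
  have fa := PS_fm h (ch_one Γ) a k2
  have fb := PS_fm h (ch_one Γ) b k2
  generalize PS Γ (fun _ => 1) a (N * M * n) = A at *
  generalize PS Γ (fun _ => 1) b (N * M * n) = B at *
  refine ⟨N * M * n, algebraMap ℂ Hol (A.1 a) * B - algebraMap ℂ Hol (B.1 a) * A, by omega,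
    fun γ hγ τ => ?_, ?_, fun e => hn ?_⟩
  · show (A.1 a * B.1 (γ • τ) - B.1 a * A.1 (γ • τ)) * _ = 1 * (A.1 a * B.1 τ - B.1 a * A.1 τ)
    linear_combination A.1 a * fb γ hγ τ - B.1 a * fa γ hγ τ
  · show A.1 a * B.1 a - B.1 a * A.1 a = 0
    ring
  · have e' : A.1 a * B.1 b - B.1 a * A.1 b = 0 := e
    have e2 : (4 * (a.im : ℂ) * a.im) ^ (N * M * n) * (4 * (b.im : ℂ) * b.im) ^ (N * M * n) =
        (4 * (b.im : ℂ) * a.im) ^ (N * M * n) * (4 * (a.im : ℂ) * b.im) ^ (N * M * n) := by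
      rw [← mul_pow, ← mul_pow]
      congr 1
      ring
    push_cast
    linear_combination (4 * (a.im : ℂ) * a.im) ^ (N * M * n) *
      (4 * (b.im : ℂ) * b.im) ^ (N * M * n) * e' + B.1 a * A.1 b * e2

end Vale.Agent.P022K.F0.Cf
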